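import Vale.Agent.P268.T.H354.Win

/-!
# P268, topological half: the direction `(-d, single i₀ 1)` of the ZIP

`quot_growth`: growth of a quotient `f / m` along a direction.  `zY_grow`, `zN_grow`: growth of
`zY` and of `s.2 i₀ / ‖s‖` along `zdir i₀ d`.  `zY_dirLip`, `zN_dirLip`: Lipschitz along `(1, 0)`.
`front_grow`: growth of the front function `‖p‖ - |u₀|`.
-/

set_option linter.unusedSectionVars false

namespace Vale.Agent.P268.T.Z903

open Set Filter Topology Metric Z293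

section quot

variable {E : Type*} [NormedAddCommGroup E] [NormedSpace ℝ E]

/-- Growth of a quotient. -/
theorem quot_growth {f m : E → ℝ} {s a : E} (hf : ContinuousAt f s) (hm : ContinuousAt m s)
    (hms : 0 < m s) {κ l : ℝ} (hκ : 0 ≤ κ) (hl0 : 0 ≤ l) (hl : l * m s ^ 2 < m s - κ * |f s|)
    {U₀ : Set E} (hU₀ : U₀ ∈ 𝓝 s) (H : ∀ y ∈ U₀, ∀ γ : ℝ, 0 ≤ γ → y + γ • a ∈ U₀ →
      f (y + γ • a) = f y + γ ∧ |m (y + γ • a) - m y| ≤ κ * γ) :
    ∃ L : ℝ, ∃ U ∈ 𝓝 s, ∀ y ∈ U, ∀ γ : ℝ, 0 ≤ γ → y + γ • a ∈ U →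
      l * γ ≤ f (y + γ • a) / m (y + γ • a) - f y / m y ∧
      f (y + γ • a) / m (y + γ • a) - f y / m y ≤ L * γ := by
  obtain ⟨B, hB1, hB2⟩ : ∃ B, l * B ^ 2 < m s - κ * |f s| ∧ m s < B := by
    have c : Continuous fun b : ℝ => l * b ^ 2 := by fun_prop
    have h1 : ∀ᶠ b in 𝓝[>] (m s), l * b ^ 2 < m s - κ * |f s| :=
      (c.continuousAt.eventually (gt_mem_nhds hl)).filter_mono nhdsWithin_le_nhds
    exact (h1.and self_mem_nhdsWithin).exists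
  set c := m s / 2 with hc
  have hc0 : 0 < c := by positivity
  have e1 : ∀ᶠ y in 𝓝 s, c < m y := hm.eventually (lt_mem_nhds (by linarith))
  have e2 : ∀ᶠ y in 𝓝 s, m y < B := hm.eventually (gt_mem_nhds hB2)
  have e3 : ∀ᶠ y in 𝓝 s, l * B ^ 2 < m y - κ * |f y| :=
    (hm.sub (continuousAt_const.mul hf.abs)).eventually (lt_mem_nhds hB1)
  refine ⟨2 * B / c ^ 2, U₀ ∩ {y | c < m y ∧ m y < B ∧ l * B ^ 2 < m y - κ * |f y|},
    inter_mem hU₀ (e1.and (e2.and e3)), ?_⟩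
  rintro y ⟨hy, a1, a2, a3⟩ γ hγ ⟨hy', b1, b2, b3⟩
  obtain ⟨hf', hm'⟩ := H y hy γ hγ hy'
  rw [hf']
  set m' := m (y + γ • a) with hmd
  have hm0 : 0 < m y := hc0.trans a1
  have hm0' : 0 < m' := hc0.trans b1
  have hB0 : 0 < B := hms.trans hB2
  have hfm : |f y * (m' - m y)| ≤ κ * |f y| * γ := by
    rw [abs_mul]
    calc |f y| * |m' - m y| ≤ |f y| * (κ * γ) := mul_le_mul_of_nonneg_left hm' (abs_nonneg _)
      _ = _ := by ring
  have e : (f y + γ) / m' - f y / m y = (γ * m y - f y * (m' - m y)) / (m y * m') := by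
    field_simp
    ring
  rw [e]
  have hmm : 0 < m y * m' := mul_pos hm0 hm0'
  have hmmB : m y * m' ≤ B ^ 2 := by
    rw [sq]; exact mul_le_mul a2.le b2.le hm0'.le hB0.le
  have hmmc : c ^ 2 ≤ m y * m' := by
    rw [sq]; exact mul_le_mul a1.le b1.le hc0.le hm0.le
  have hab := abs_le.mp hfm
  constructor
  · rw [le_div_iff₀ hmm]
    have h1 : l * (m y * m') ≤ m y - κ * |f y| :=
      (mul_le_mul_of_nonneg_left hmmB hl0).trans a3.le
    have h2 := mul_le_mul_of_nonneg_left h1 hγ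
    nlinarith
  · rw [div_le_iff₀ hmm]
    have h0 : 0 ≤ κ * |f y| := mul_nonneg hκ (abs_nonneg _)
    have h1 : κ * |f y| ≤ B := by
      have : 0 ≤ l * B ^ 2 := by positivity
      linarith
    have h2 : κ * |f y| * γ ≤ B * γ := mul_le_mul_of_nonneg_right h1 hγ
    have h3 : γ * m y ≤ B * γ := by rw [mul_comm]; exact mul_le_mul_of_nonneg_right a2.le hγ
    have h4 : 2 * B / c ^ 2 * γ * c ^ 2 = 2 * B * γ := by field_simp
    have h5 : 2 * B / c ^ 2 * γ * c ^ 2 ≤ 2 * B / c ^ 2 * γ * (m y * m') :=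
      mul_le_mul_of_nonneg_left hmmc (by positivity)
    linarith

/-- A quotient is Lipschitz along a direction which does not change the numerator. -/
theorem quot_dirLip {f m : E → ℝ} {s a : E} (hf : ContinuousAt f s) (hm : ContinuousAt m s)
    (hms : 0 < m s) {κ : ℝ} (hκ : 0 ≤ κ)
    (H : ∀ y, ∀ γ : ℝ, f (y + γ • a) = f y ∧ |m (y + γ • a) - m y| ≤ κ * |γ|) :
    ∃ L : ℝ, ∃ U ∈ 𝓝 s, ∀ y ∈ U, ∀ γ : ℝ, y + γ • a ∈ U →
      |f (y + γ • a) / m (y + γ • a) - f y / m y| ≤ L * |γ| := by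
  set c := m s / 2 with hc
  have hc0 : 0 < c := by positivity
  set B := |f s| + 1 with hB
  have hB0 : 0 < B := by positivity
  have e1 : ∀ᶠ y in 𝓝 s, c < m y := hm.eventually (lt_mem_nhds (by linarith))
  have e2 : ∀ᶠ y in 𝓝 s, |f y| < B := hf.abs.eventually (gt_mem_nhds (by linarith))
  refine ⟨B * κ / c ^ 2, {y | c < m y ∧ |f y| < B}, e1.and e2, ?_⟩
  rintro y ⟨a1, a2⟩ γ ⟨b1, b2⟩
  obtain ⟨hf', hm'⟩ := H y γ
  rw [hf']
  set m' := m (y + γ • a) with hmd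
  have hm0 : 0 < m y := hc0.trans a1
  have hm0' : 0 < m' := hc0.trans b1
  have hmm : 0 < m y * m' := mul_pos hm0 hm0'
  have hmmc : c ^ 2 ≤ m y * m' := by
    rw [sq]; exact mul_le_mul a1.le b1.le hc0.le hm0.le
  have e : f y / m' - f y / m y = -(f y * (m' - m y)) / (m y * m') := by
    field_simp
    ring
  rw [e, abs_div, abs_of_pos hmm, div_le_iff₀ hmm, abs_neg, abs_mul]
  have h1 : |f y| * |m' - m y| ≤ B * (κ * |γ|) :=
    mul_le_mul a2.le hm' (abs_nonneg _) hB0.le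
  have h4 : B * κ / c ^ 2 * |γ| * c ^ 2 = B * (κ * |γ|) := by field_simp
  have h5 : B * κ / c ^ 2 * |γ| * c ^ 2 ≤ B * κ / c ^ 2 * |γ| * (m y * m') :=
    mul_le_mul_of_nonneg_left hmmc (by positivity)
  linarith

end quot

variable {ι : Type*} [Fintype ι] [DecidableEq ι] {i₀ : ι}

/-- The denominator of `zY`. -/
noncomputable def zD (i₀ : ι) (s : ℝ × (ι → ℝ)) : ℝ := max (zm i₀ s) (|s.2 i₀| / 4)

theorem continuous_zD : Continuous (zD i₀ : ℝ × (ι → ℝ) → ℝ) :=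
  continuous_zm.max ((continuous_co i₀).abs.div_const 4)

theorem fst_pos {s : ℝ × (ι → ℝ)} (hle : ‖s.2‖ ≤ s.1) (hs : s ≠ 0) : 0 < s.1 := by
  rcases ((norm_nonneg _).trans hle).eq_or_lt with h1 | h1
  · exfalso
    apply hs
    have h2 : s.2 = 0 := norm_le_zero_iff.mp (by rw [h1]; exact hle)
    exact Prod.ext h1.symm h2
  · exact h1

theorem norm_eq_fst {s : ℝ × (ι → ℝ)} (hle : ‖s.2‖ ≤ s.1) : ‖s‖ = s.1 := by
  have h0 : 0 ≤ s.1 := (norm_nonneg _).trans hle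
  rw [Prod.norm_def, Real.norm_eq_abs, abs_of_nonneg h0, max_eq_left hle]

/-- Growth of `zY` along `(-d, single i₀ 1)`. -/
theorem zY_grow {s : ℝ × (ι → ℝ)} (hle : ‖s.2‖ ≤ s.1) (hs : s ≠ 0) {d : ℝ} (hd0 : 0 ≤ d)
    (hd : d ≤ 1 / 2) : ∃ L : ℝ, ∃ U ∈ 𝓝 s, ∀ y ∈ U, ∀ γ : ℝ, 0 ≤ γ → y + γ • zdir i₀ d ∈ U →
      1 / (4 * ‖s‖) * γ ≤ zY i₀ (y + γ • zdir i₀ d) - zY i₀ y ∧
      zY i₀ (y + γ • zdir i₀ d) - zY i₀ y ≤ L * γ := by
  have hu := fst_pos hle hs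
  have hn := norm_eq_fst hle
  have hp : |s.2 i₀| ≤ s.1 := by
    have := norm_le_pi_norm s.2 i₀
    rw [Real.norm_eq_abs] at this
    exact this.trans hle
  have hD1 : s.1 / 2 ≤ zD i₀ s := by
    refine le_trans ?_ (le_max_left _ _)
    unfold zm
    rw [abs_of_pos hu]
    exact le_max_right _ _
  have hD2 : zD i₀ s ≤ s.1 := by
    refine max_le (max_le ((norm_update_le i₀ s.2).trans hle) ?_) ?_
    · rw [abs_of_pos hu]; linarith
    · linarith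
  refine quot_growth (f := fun s : ℝ × (ι → ℝ) => s.2 i₀) (m := zD i₀)
    (continuous_co i₀).continuousAt continuous_zD.continuousAt (zY_den_pos hs) (κ := 1 / 4)
    (by norm_num) (by positivity) ?_ univ_mem ?_
  · rw [hn]
    have h1 : zD i₀ s ^ 2 ≤ s.1 * zD i₀ s := by
      rw [sq]; exact mul_le_mul_of_nonneg_right hD2 (by linarith)
    have h2 : 1 / (4 * s.1) * zD i₀ s ^ 2 ≤ zD i₀ s / 4 := by
      rw [one_div, inv_mul_le_iff₀ (by positivity)]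
      calc zD i₀ s ^ 2 ≤ s.1 * zD i₀ s := h1
        _ = _ := by ring
    show 1 / (4 * s.1) * zD i₀ s ^ 2 < zD i₀ s - 1 / 4 * |s.2 i₀|
    linarith
  · intro y _ γ hγ _
    refine ⟨add_zdir_same y γ d, ?_⟩
    unfold zD
    refine (abs_max_sub_max_le_max _ _ _ _).trans (max_le ?_ ?_)
    · unfold zm
      rw [update_add_zdir]
      refine (abs_max_sub_max_le_max _ _ _ _).trans (max_le ?_ ?_)
      · rw [sub_self, abs_zero]; positivity
      · rw [add_zdir_fst]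
        have e : |y.1 - γ * d| / 2 - |y.1| / 2 = (|y.1 - γ * d| - |y.1|) / 2 := by ring
        rw [e, abs_div, abs_two]
        have h1 := abs_abs_sub_abs_le (y.1 - γ * d) y.1
        have e2 : y.1 - γ * d - y.1 = -(γ * d) := by ring
        rw [e2, abs_neg, abs_of_nonneg (mul_nonneg hγ hd0)] at h1
        have h2 : γ * d ≤ γ * (1 / 2) := mul_le_mul_of_nonneg_left hd hγ
        linarith
    · rw [add_zdir_same]
      have e : |y.2 i₀ + γ| / 4 - |y.2 i₀| / 4 = (|y.2 i₀ + γ| - |y.2 i₀|) / 4 := by ring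
      rw [e, abs_div, abs_of_pos (by norm_num : (0 : ℝ) < 4)]
      have h1 := abs_abs_sub_abs_le (y.2 i₀ + γ) (y.2 i₀)
      have e2 : y.2 i₀ + γ - y.2 i₀ = γ := by ring
      rw [e2, abs_of_nonneg hγ] at h1
      linarith

/-- Growth of `s.2 i₀ / ‖s‖` along `(-d, single i₀ 1)`. -/
theorem zN_grow {s : ℝ × (ι → ℝ)} (hs : s ≠ 0) (h0 : -1 < kap s i₀) (h1 : kap s i₀ < 1)
    {d : ℝ} (hd0 : 0 ≤ d) (hd : d ≤ 1 / 2) (hc : d = 0 ∨ ‖s.2‖ = s.1) :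
    ∃ L : ℝ, ∃ U ∈ 𝓝 s, ∀ y ∈ U, ∀ γ : ℝ, 0 ≤ γ → y + γ • zdir i₀ d ∈ U →
      1 / (4 * ‖s‖) * γ ≤ (y + γ • zdir i₀ d).2 i₀ / ‖y + γ • zdir i₀ d‖ - y.2 i₀ / ‖y‖ ∧
      (y + γ • zdir i₀ d).2 i₀ / ‖y + γ • zdir i₀ d‖ - y.2 i₀ / ‖y‖ ≤ L * γ := by
  have hn : 0 < ‖s‖ := norm_pos_iff.mpr hs
  obtain ⟨U, hU, H⟩ := kap_add_zdir h0 h1 hs
  refine quot_growth (f := fun s : ℝ × (ι → ℝ) => s.2 i₀) (m := fun s => ‖s‖)
    (continuous_co i₀).continuousAt continuous_norm.continuousAt hn (κ := 1 / 2)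
    (by norm_num) (by positivity) ?_ hU ?_
  · have h2 : |s.2 i₀| ≤ ‖s‖ := by
      have := norm_le_pi_norm s.2 i₀
      rw [Real.norm_eq_abs] at this
      exact this.trans (norm_snd_le s)
    have h3 : 1 / (4 * ‖s‖) * ‖s‖ ^ 2 = ‖s‖ / 4 := by field_simp
    show 1 / (4 * ‖s‖) * ‖s‖ ^ 2 < ‖s‖ - 1 / 2 * |s.2 i₀|
    rw [h3]
    linarith
  · intro y hy γ hγ hy'
    refine ⟨add_zdir_same y γ d, ?_⟩
    have h2 := (H d ⟨hd0, hd.trans (by norm_num)⟩ hc y hy γ hy').2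
    rw [abs_of_nonneg hγ] at h2
    exact h2.trans (mul_le_mul_of_nonneg_right hd hγ)

theorem zY_dirLip {s : ℝ × (ι → ℝ)} (hs : s ≠ 0) :
    ∃ L : ℝ, ∃ U ∈ 𝓝 s, ∀ y ∈ U, ∀ γ : ℝ, y + γ • ((1, 0) : ℝ × (ι → ℝ)) ∈ U →
      |zY i₀ (y + γ • ((1, 0) : ℝ × (ι → ℝ))) - zY i₀ y| ≤ L * |γ| := by
  refine quot_dirLip (f := fun s : ℝ × (ι → ℝ) => s.2 i₀) (m := zD i₀)
    (continuous_co i₀).continuousAt continuous_zD.continuousAt (zY_den_pos hs) (κ := 1)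
    zero_le_one fun y γ => ?_
  have e1 : (y + γ • ((1, 0) : ℝ × (ι → ℝ))).2 = y.2 := by simp
  have e2 : (y + γ • ((1, 0) : ℝ × (ι → ℝ))).1 = y.1 + γ := by simp
  refine ⟨by rw [e1], ?_⟩
  unfold zD
  refine (abs_max_sub_max_le_max _ _ _ _).trans (max_le ?_ ?_)
  · unfold zm
    rw [e1, e2]
    refine (abs_max_sub_max_le_max _ _ _ _).trans (max_le ?_ ?_)
    · rw [sub_self, abs_zero]; positivity
    · have e : |y.1 + γ| / 2 - |y.1| / 2 = (|y.1 + γ| - |y.1|) / 2 := by ring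
      rw [e, abs_div, abs_two]
      have h1 := abs_abs_sub_abs_le (y.1 + γ) y.1
      have e2 : y.1 + γ - y.1 = γ := by ring
      rw [e2] at h1
      have := abs_nonneg γ
      linarith
  · rw [e1, sub_self, abs_zero]; positivity

theorem zN_dirLip {s : ℝ × (ι → ℝ)} (hs : s ≠ 0) :
    ∃ L : ℝ, ∃ U ∈ 𝓝 s, ∀ y ∈ U, ∀ γ : ℝ, y + γ • ((1, 0) : ℝ × (ι → ℝ)) ∈ U →
      |(y + γ • ((1, 0) : ℝ × (ι → ℝ))).2 i₀ / ‖y + γ • ((1, 0) : ℝ × (ι → ℝ))‖ -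
        y.2 i₀ / ‖y‖| ≤ L * |γ| := by
  refine quot_dirLip (f := fun s : ℝ × (ι → ℝ) => s.2 i₀) (m := fun s => ‖s‖)
    (continuous_co i₀).continuousAt continuous_norm.continuousAt (norm_pos_iff.mpr hs) (κ := 1)
    zero_le_one fun y γ => ⟨by simp, ?_⟩
  refine (abs_norm_sub_norm_le _ _).trans ?_
  rw [add_sub_cancel_left, norm_smul, Real.norm_eq_abs, Prod.norm_def]
  simp

/-- Growth of the front function. -/
theorem front_grow {s : ℝ × (ι → ℝ)} (hs : s ≠ 0) (h : ‖s.2‖ = s.1) (h0 : -1 < kap s i₀)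
    (d : ℝ) : ∃ U ∈ 𝓝 s, ∀ y ∈ U, ∀ γ : ℝ, 0 ≤ γ → y + γ • zdir i₀ d ∈ U →
      d * γ ≤ (‖(y + γ • zdir i₀ d).2‖ - |(y + γ • zdir i₀ d).1|) - (‖y.2‖ - |y.1|) := by
  have hu := fst_pos h.le hs
  have hp0 : 0 < ‖s.2‖ := h ▸ hu
  have hkap : kap s i₀ = s.2 i₀ / ‖s.2‖ := by
    rw [kap_of_le (by rw [abs_of_pos hu]; linarith)]
    rw [Pi.smul_apply, smul_eq_mul]; ring
  have key : ∀ᶠ y : ℝ × (ι → ℝ) in 𝓝 s, 0 < y.2 i₀ ∨ |y.2 i₀| < ‖Function.update y.2 i₀ 0‖ := by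
    rcases lt_or_ge 0 (s.2 i₀) with h1 | h1
    · exact ((continuous_co i₀).continuousAt.eventually (lt_mem_nhds h1)).mono fun y hy =>
        Or.inl hy
    · have h2 : |s.2 i₀| < ‖s.2‖ := by
        rw [hkap, lt_div_iff₀ hp0] at h0
        rw [abs_of_nonpos h1]; linarith
      have h3 : |s.2 i₀| < ‖Function.update s.2 i₀ 0‖ := by
        rw [norm_eq_max i₀ s.2] at h2
        rcases lt_max_iff.mp h2 with h4 | h4
        · exact h4
        · exact absurd h4 (lt_irrefl _)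
      have c2 : Continuous fun y : ℝ × (ι → ℝ) => ‖Function.update y.2 i₀ (0 : ℝ)‖ :=
        (continuous_snd.update i₀ continuous_const).norm
      exact ((continuous_co i₀).abs.continuousAt.eventually_lt c2.continuousAt h3).mono
        fun y hy => Or.inr hy
  have e2 : ∀ᶠ y : ℝ × (ι → ℝ) in 𝓝 s, 0 < y.1 :=
    continuous_fst.continuousAt.eventually (lt_mem_nhds hu)
  refine ⟨_, e2.and key, ?_⟩
  rintro y ⟨a1, a2⟩ γ hγ ⟨b1, -⟩
  have hmono : ‖y.2‖ ≤ ‖(y + γ • zdir i₀ d).2‖ := by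
    rw [norm_eq_max i₀ y.2, norm_eq_max i₀ (y + γ • zdir i₀ d).2, update_add_zdir,
      add_zdir_same]
    rcases a2 with a2 | a2
    · refine max_le_max le_rfl ?_
      rw [abs_of_pos a2, abs_of_nonneg (by linarith)]
      linarith
    · rw [max_eq_left a2.le]
      exact le_max_left _ _
  rw [abs_of_pos a1, abs_of_pos b1, add_zdir_fst]
  linarith

end Vale.Agent.P268.T.Z903
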