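import Vale.Agent.P268.T.H903.ZipThm
import Vale.Agent.P268.T.H240.Split

/-!
# P268, topological half: `ZipProp`
-/

namespace Vale.Agent.P268.T.Z903

/-- The ZIP, in the form of the assembly of `BlockSplit`. -/
theorem zipProp : H240.ZipProp := fun d _ _ _ _ _ _ _ _ _ _ _ h hA hK =>
  zip h (frk d).hh hA hK

end Vale.Agent.P268.T.Z903
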