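import Vale.Agent.P268.T.H903.RotV

/-!
# P268, topological half: the rotation field of the K-form

`absV w = -(|w_j|)_j`, `eDiag = -(1,…,1)/√N`.  For every field `n ≠ 0` on `S ∖ 0` the field
`absDir (n s) = absV (n s) / ‖n s‖` is a rotation field for `eDiag` (never opposite).
With `P = w⁺/‖w⁺‖` one has `w - 2 ⟪P, w⟫ P = absV w` (`absV_eq`), and for a rotation `A = rot a b`
`A (x - 2 ⟪P, x⟫ P) = A x - 2 ⟪A P, A x⟫ A P` (`rot_reflect`).
-/

set_option linter.unusedSectionVars false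

namespace Vale.Agent.P268.T

open Set Filter Topology
open scoped RealInnerProductSpace

theorem rot_reflect {V : Type*} [NormedAddCommGroup V] [InnerProductSpace ℝ V] {a b : V}
    (ha : ‖a‖ = 1) (hb : ‖b‖ = 1) (h : 1 + ⟪a, b⟫ ≠ 0) (P x : V) :
    rot a b (x - (2 * ⟪P, x⟫) • P) =
      rot a b x - (2 * ⟪rot a b P, rot a b x⟫) • rot a b P := by
  rw [inner_rot ha hb h, rot_sub, rot_smul]

variable {ι : Type} [Fintype ι] [Nonempty ι]

/-- Minus the vector of absolute values. -/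
noncomputable def absV (w : EuclideanSpace ℝ ι) : EuclideanSpace ℝ ι :=
  WithLp.toLp 2 fun j => -|w j|

@[simp] theorem absV_apply (w : EuclideanSpace ℝ ι) (j : ι) : absV w j = -|w j| := rfl

theorem norm_absV (w : EuclideanSpace ℝ ι) : ‖absV w‖ = ‖w‖ := by
  rw [EuclideanSpace.norm_eq, EuclideanSpace.norm_eq]
  congr 1
  refine Finset.sum_congr rfl fun j _ => ?_
  rw [absV_apply, norm_neg, Real.norm_eq_abs, abs_abs, Real.norm_eq_abs]

theorem continuous_absV : Continuous (absV : EuclideanSpace ℝ ι → EuclideanSpace ℝ ι) := by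
  unfold absV
  refine (PiLp.continuous_toLp 2 (fun _ : ι => ℝ)).comp (continuous_pi fun j => ?_)
  exact ((EuclideanSpace.proj (𝕜 := ℝ) j).continuous).abs.neg

theorem absV_smul (r : ℝ) (w : EuclideanSpace ℝ ι) : absV (r • w) = |r| • absV w := by
  ext j
  rw [absV_apply, PiLp.smul_apply, PiLp.smul_apply, absV_apply, smul_eq_mul, smul_eq_mul, abs_mul]
  ring

/-- The positive part. -/
noncomputable def posV (w : EuclideanSpace ℝ ι) : EuclideanSpace ℝ ι :=
  WithLp.toLp 2 fun j => max (w j) 0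

@[simp] theorem posV_apply (w : EuclideanSpace ℝ ι) (j : ι) : posV w j = max (w j) 0 := rfl

theorem inner_posV (w : EuclideanSpace ℝ ι) : ⟪posV w, w⟫ = ‖posV w‖ ^ 2 := by
  rw [← real_inner_self_eq_norm_sq, PiLp.inner_apply, PiLp.inner_apply]
  refine Finset.sum_congr rfl fun j _ => ?_
  simp only [posV_apply, RCLike.inner_apply, conj_trivial]
  rcases le_total (w j) 0 with h | h
  · rw [max_eq_right h]; simp
  · rw [max_eq_left h]

/-- `w` minus twice its projection on the positive part. -/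
theorem absV_eq' (w : EuclideanSpace ℝ ι) : w - (2 : ℝ) • posV w = absV w := by
  ext j
  rw [PiLp.sub_apply, PiLp.smul_apply, posV_apply, absV_apply, smul_eq_mul]
  rcases le_total (w j) 0 with h | h
  · rw [max_eq_right h, abs_of_nonpos h]; ring
  · rw [max_eq_left h, abs_of_nonneg h]; ring

/-- The reflection in `w⁺` carries `w` to `absV w`. -/
theorem absV_eq {w : EuclideanSpace ℝ ι} (h : posV w ≠ 0) :
    w - (2 * ⟪‖posV w‖⁻¹ • posV w, w⟫) • (‖posV w‖⁻¹ • posV w) = absV w := by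
  have h1 : ‖posV w‖ ≠ 0 := norm_ne_zero_iff.mpr h
  rw [← absV_eq', inner_smul_left, inner_posV, smul_smul, RCLike.conj_to_real]
  congr 2
  field_simp

theorem posV_eq_zero {w : EuclideanSpace ℝ ι} : posV w = 0 ↔ ∀ j, w j ≤ 0 := by
  constructor
  · intro h j
    have := congrArg (fun z : EuclideanSpace ℝ ι => z j) h
    simp only [posV_apply, PiLp.zero_apply] at this
    exact max_eq_right_iff.mp this
  · intro h
    ext j
    rw [posV_apply, max_eq_right (h j)]; rfl

theorem absV_of_nonpos {w : EuclideanSpace ℝ ι} (h : ∀ j, w j ≤ 0) : absV w = w := by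
  ext j
  rw [absV_apply, abs_of_nonpos (h j), neg_neg]

/-- The unit vector `-(1,…,1)/√N`. -/
noncomputable def eDiag (ι : Type) [Fintype ι] : EuclideanSpace ℝ ι :=
  WithLp.toLp 2 fun _ => -(Real.sqrt (Fintype.card ι))⁻¹

theorem norm_eDiag : ‖eDiag ι‖ = 1 := by
  have hc : (0 : ℝ) < Fintype.card ι := by exact_mod_cast Fintype.card_pos
  rw [EuclideanSpace.norm_eq]
  have : ∀ j : ι, ‖eDiag ι j‖ ^ 2 = (Fintype.card ι : ℝ)⁻¹ := fun j => by
    show ‖-(Real.sqrt (Fintype.card ι))⁻¹‖ ^ 2 = _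
    rw [norm_neg, norm_inv, inv_pow, Real.norm_eq_abs, sq_abs, Real.sq_sqrt hc.le]
  simp only [this, Finset.sum_const, Finset.card_univ, nsmul_eq_mul]
  rw [mul_inv_cancel₀ hc.ne', Real.sqrt_one]

theorem inner_absV_eDiag_nonneg (w : EuclideanSpace ℝ ι) : 0 ≤ ⟪absV w, eDiag ι⟫ := by
  rw [PiLp.inner_apply]
  refine Finset.sum_nonneg fun j _ => ?_
  simp only [absV_apply, RCLike.inner_apply, conj_trivial]
  show 0 ≤ -(Real.sqrt (Fintype.card ι))⁻¹ * -|w j|
  rw [neg_mul_neg]
  positivity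

/-- The unit vector in the direction of `absV w`. -/
noncomputable def absDir (w : EuclideanSpace ℝ ι) : EuclideanSpace ℝ ι := ‖w‖⁻¹ • absV w

theorem norm_absDir {w : EuclideanSpace ℝ ι} (h : w ≠ 0) : ‖absDir w‖ = 1 := by
  unfold absDir
  rw [norm_smul, norm_absV, norm_inv, norm_norm, inv_mul_cancel₀ (norm_ne_zero_iff.mpr h)]

theorem absDir_of_nonpos {w : EuclideanSpace ℝ ι} (h : ∀ j, w j ≤ 0) :
    absDir w = ‖w‖⁻¹ • w := by
  unfold absDir; rw [absV_of_nonpos h]

theorem one_add_inner_absDir (w : EuclideanSpace ℝ ι) : 0 < 1 + ⟪absDir w, eDiag ι⟫ := by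
  unfold absDir
  rw [inner_smul_left, RCLike.conj_to_real]
  have := mul_nonneg (inv_nonneg.mpr (norm_nonneg w)) (inner_absV_eDiag_nonneg w)
  linarith

/-- **The rotation field of the K-form.** -/
theorem rotField_abs {S : Type} [NormedAddCommGroup S] [NormedSpace ℝ S] {N : S → ℝ}
    (hN : Gauge N) {n : S → EuclideanSpace ℝ ι} (hn : ContinuousOn n {s | s ≠ 0})
    (h0 : ∀ s ≠ 0, n s ≠ 0) : RotField N (eDiag ι) (fun s => absDir (n s)) where
  gauge := hN
  cont := by
    unfold absDir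
    exact (hn.norm.inv₀ fun s hs => norm_ne_zero_iff.mpr (h0 s hs)).smul
      (continuous_absV.comp_continuousOn hn)
  norm := fun s hs => norm_absDir (h0 s hs)
  ne := fun s _ => (one_add_inner_absDir _).ne'
  he := norm_eDiag

/-- The rotated normal: `e` where `n ≤ 0`. -/
theorem rot_normal_of_nonpos {w : EuclideanSpace ℝ ι} (h0 : w ≠ 0) (h : ∀ j, w j ≤ 0) :
    rot (absDir w) (eDiag ι) (‖w‖⁻¹ • w) = eDiag ι := by
  rw [← absDir_of_nonpos h]
  exact rot_left (norm_absDir h0) (one_add_inner_absDir w).ne'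

/-- The rotated normal is the reflection of `e` in the rotated field `P = w⁺/‖w⁺‖`. -/
theorem rot_normal {w : EuclideanSpace ℝ ι} (h0 : w ≠ 0) (h : posV w ≠ 0) :
    rot (absDir w) (eDiag ι) (‖w‖⁻¹ • w) =
      eDiag ι - (2 * ⟪rot (absDir w) (eDiag ι) (‖posV w‖⁻¹ • posV w), eDiag ι⟫) •
        rot (absDir w) (eDiag ι) (‖posV w‖⁻¹ • posV w) := by
  set P := ‖posV w‖⁻¹ • posV w with hP
  have ha := norm_absDir h0
  have hb := norm_eDiag (ι := ι)
  have hc := (one_add_inner_absDir w).ne'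
  have hPP : ⟪P, P⟫ = 1 := by
    rw [real_inner_self_eq_norm_sq, hP, norm_smul, norm_inv, norm_norm,
      inv_mul_cancel₀ (norm_ne_zero_iff.mpr h), one_pow]
  have h1 : w - (2 * ⟪P, w⟫) • P = absV w := absV_eq h
  -- the reflection is an involution
  have h2 : ‖w‖⁻¹ • w = absDir w - (2 * ⟪P, absDir w⟫) • P := by
    have e1 : absDir w = ‖w‖⁻¹ • w - (2 * ⟪P, ‖w‖⁻¹ • w⟫) • P := by
      unfold absDir
      rw [← h1, inner_smul_right]
      module
    have e2 : ⟪P, absDir w⟫ = -⟪P, ‖w‖⁻¹ • w⟫ := by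
      rw [e1, inner_sub_right, inner_smul_right P P, hPP]; ring
    rw [e2]
    nth_rewrite 1 [e1]
    module
  rw [h2, rot_reflect ha hb hc, rot_left ha hc]

end Vale.Agent.P268.T
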