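import Vale.Agent.P268.T.HEq

/-!
# P268, topological half: only the page matters

* `HFun.of_germ`, `HEqv.of_germ`: two functions of class `H` which agree near the points where one
  of the real parts is nonnegative are equivalent (straight path).
* `clip g F = max (re F) (-g) + i im F`: equivalent to `F` for every positive homogeneous `g`.
* `HEqv.of_homeo_clip`: precomposition with a homeomorphism, where the functions only have to
  correspond to each other where one of the real parts is `> -g`.
-/

set_option linter.unusedSectionVars false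

namespace Vale.Agent.P268.T

open Set Filter Topology

section

variable {E : Type} [NormedAddCommGroup E] [NormedSpace ℝ E]
  {E' : Type} [NormedAddCommGroup E'] [NormedSpace ℝ E']

theorem RegAt.const_congr {F G : E → ℂ} {x : E} {T : Type*} [TopologicalSpace T] {s : Set T}
    {H : T → E → ℂ} {t : T} (h : RegAt (univ : Set Unit) (fun _ => F) () x)
    (hFG : ∀ᶠ y in 𝓝 x, F y = G y) (hH : ∀ᶠ y in 𝓝 x, ∀ t' ∈ s, F y = G y → H t' y = F y) :
    RegAt s H t x := by
  refine (h.const s t).congr ⟨{y | F y = G y ∧ ∀ t' ∈ s, F y = G y → H t' y = F y},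
    hFG.and hH, ?_⟩
  filter_upwards [self_mem_nhdsWithin] with t' ht' y hy
  exact (hy.2 t' ht' hy.1).symm

/-- The class `H` only depends on the germ along the set where the real part is nonnegative. -/
theorem HFun.of_germ {F G : E → ℂ} (hF : HFun F) (hc : Continuous G) (hh : Hom1 G)
    (h : ∀ x ≠ 0, 0 ≤ (G x).re → ∀ᶠ y in 𝓝 x, F y = G y) : HFun G := by
  refine HFun.mk' hc hh fun x hx h0 => ?_
  have h1 := h x hx h0
  have h2 : F x = G x := h1.self_of_nhds
  refine RegAt.const_congr (F := F) (G := G) (hF.reg () (mem_univ _) x hx ?_) h1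
    (Eventually.of_forall fun y t' _ e => e.symm)
  rw [h2]; exact h0

/-- The straight path between two functions with the same germ along the pages. -/
theorem HFam.of_germ {F G : E → ℂ} (hF : HFun F) (hG : HFun G)
    (h : ∀ x ≠ 0, (0 ≤ (F x).re ∨ 0 ≤ (G x).re) → ∀ᶠ y in 𝓝 x, F y = G y) :
    HFam (Icc (0 : ℝ) 1) (fun t x => F x + (t : ℂ) * (G x - F x)) where
  cont := by
    have h1 : Continuous fun p : ℝ × E => F p.2 + (p.1 : ℂ) * (G p.2 - F p.2) :=
      (hF.continuous.comp continuous_snd).add
        ((Complex.continuous_ofReal.comp continuous_fst).mul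
          ((hG.continuous.comp continuous_snd).sub (hF.continuous.comp continuous_snd)))
    exact h1.continuousOn
  hom := fun t _ r hr x => by
    show F (r • x) + (t : ℂ) * (G (r • x) - F (r • x)) = r • (F x + (t : ℂ) * (G x - F x))
    rw [hF.hom1 r hr, hG.hom1 r hr]
    simp only [Complex.real_smul]
    ring
  reg := by
    intro t ht x hx h0
    have h1 : 0 ≤ (F x).re ∨ 0 ≤ (G x).re := by
      by_contra hcon
      push Not at hcon
      have e : (F x + (t : ℂ) * (G x - F x)).re = (1 - t) * (F x).re + t * (G x).re := by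
        simp; ring
      rw [e] at h0
      rcases ht.1.eq_or_lt with rfl | ht0
      · linarith [hcon.1]
      · have e1 : t * (G x).re < 0 := mul_neg_of_pos_of_neg ht0 hcon.2
        have e2 : (1 - t) * (F x).re ≤ 0 :=
          mul_nonpos_of_nonneg_of_nonpos (by linarith [ht.2]) hcon.1.le
        linarith
    have h2 := h x hx h1
    have h3 : F x = G x := h2.self_of_nhds
    refine RegAt.const_congr (F := F) (G := G) (hF.reg () (mem_univ _) x hx ?_) h2
      (Eventually.of_forall fun y t' _ e => ?_)
    · rcases h1 with h1 | h1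
      · exact h1
      · rw [h3]; exact h1
    · rw [e]; ring

/-- **Germ lemma.** -/
theorem HEqv.of_germ [FiniteDimensional ℝ E] {F G : E → ℂ} (hF : HFun F) (hG : HFun G)
    (h : ∀ x ≠ 0, (0 ≤ (F x).re ∨ 0 ≤ (G x).re) → ∀ᶠ y in 𝓝 x, F y = G y) : HEqv F G := by
  have h1 := HEqv.of_path (HFam.of_germ hF hG h)
  have e0 : (fun x => F x + ((0 : ℝ) : ℂ) * (G x - F x)) = F := by
    funext x; simp
  have e1 : (fun x => F x + ((1 : ℝ) : ℂ) * (G x - F x)) = G := by
    funext x; simp
  rw [e0, e1] at h1
  exact h1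

/-- Clipping the real part from below. -/
noncomputable def clip (g : E → ℝ) (F : E → ℂ) : E → ℂ :=
  fun x => ⟨max (F x).re (-g x), (F x).im⟩

/-- Gauges: continuous, homogeneous of degree one, positive off the origin. -/
structure Gauge (g : E → ℝ) : Prop where
  cont : Continuous g
  hom : ∀ r : ℝ, 0 ≤ r → ∀ x, g (r • x) = r * g x
  pos : ∀ x ≠ 0, 0 < g x

theorem Gauge.norm : Gauge (fun x : E => ‖x‖) :=
  ⟨continuous_norm, fun r hr x => by rw [norm_smul, Real.norm_of_nonneg hr],
    fun _ hx => norm_pos_iff.mpr hx⟩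

theorem Gauge.smul {g : E → ℝ} (h : Gauge g) {η : ℝ} (hη : 0 < η) : Gauge (fun x => η * g x) :=
  ⟨continuous_const.mul h.cont, fun r hr x => by rw [h.hom r hr]; ring,
    fun x hx => mul_pos hη (h.pos x hx)⟩

theorem Gauge.zero {g : E → ℝ} (h : Gauge g) : g 0 = 0 := by
  have := h.hom 0 le_rfl 0
  simpa using this

theorem clip_eventually {g : E → ℝ} (hg : Gauge g) {F : E → ℂ} (hF : Continuous F) {x : E}
    (hx : x ≠ 0) (h : 0 ≤ (F x).re ∨ 0 ≤ (clip g F x).re) : ∀ᶠ y in 𝓝 x, F y = clip g F y := by
  have h0 : 0 ≤ (F x).re := by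
    rcases h with h | h
    · exact h
    · have h1 : 0 ≤ max (F x).re (-g x) := h
      rcases le_max_iff.mp h1 with h1 | h1
      · exact h1
      · linarith [hg.pos x hx]
  have h1 : -g x < (F x).re := by linarith [hg.pos x hx]
  have h2 : ∀ᶠ y in 𝓝 x, -g y < (F y).re :=
    (hg.cont.neg.continuousAt).eventually_lt (Complex.continuous_re.comp hF).continuousAt h1
  filter_upwards [h2] with y hy
  refine Complex.ext ?_ rfl
  exact (max_eq_left hy.le).symm

theorem HFun.clip {g : E → ℝ} (hg : Gauge g) {F : E → ℂ} (hF : HFun F) : HFun (clip g F) := by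
  refine hF.of_germ ?_ ?_ fun x hx h0 => clip_eventually hg hF.continuous hx (Or.inr h0)
  · have h1 : Continuous fun x => ((max (F x).re (-g x) : ℝ) : ℂ) + ((F x).im : ℂ) * Complex.I :=
      (Complex.continuous_ofReal.comp
        ((Complex.continuous_re.comp hF.continuous).max hg.cont.neg)).add
      ((Complex.continuous_ofReal.comp (Complex.continuous_im.comp hF.continuous)).mul
        continuous_const)
    refine h1.congr fun x => ?_
    refine Complex.ext ?_ ?_ <;> simp [T.clip]
  · intro r hr x
    refine Complex.ext ?_ ?_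
    · show max (F (r • x)).re (-g (r • x)) = (r • T.clip g F x).re
      rw [hF.hom1 r hr, hg.hom r hr, Complex.smul_re, Complex.smul_re, smul_eq_mul, smul_eq_mul]
      show max (r * (F x).re) (-(r * g x)) = r * max (F x).re (-g x)
      rw [mul_max_of_nonneg _ _ hr, mul_neg]
    · show (F (r • x)).im = (r • T.clip g F x).im
      rw [hF.hom1 r hr, Complex.smul_im, Complex.smul_im]
      rfl

theorem HEqv.clip [FiniteDimensional ℝ E] {g : E → ℝ} (hg : Gauge g) {F : E → ℂ}
    (hF : HFun F) : HEqv F (T.clip g F) :=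
  HEqv.of_germ hF (hF.clip hg) fun _ hx h => clip_eventually hg hF.continuous hx h

/-- **Precomposition with a homeomorphism**: it is enough that the two functions correspond to
each other up to clipping at `-g`. -/
theorem HEqv.of_homeo_clip [FiniteDimensional ℝ E] [FiniteDimensional ℝ E'] {F : E → ℂ}
    {G : E' → ℂ} (hF : HFun F) (hG : HFun G) (φ : E ≃ₜ E') (h0 : φ 0 = 0) {g : E → ℝ}
    {g' : E' → ℝ} (hg : Gauge g) (hg' : Gauge g') (hgg : ∀ x, g' (φ x) = g x)
    (h : ∀ x, F x = G (φ x) ∨
      ((F x).re ≤ -g x ∧ (G (φ x)).re ≤ -g x ∧ (F x).im = (G (φ x)).im)) : HEqv F G := by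
  refine (HEqv.clip hg hF).trans (HEqv.trans ?_ (HEqv.clip hg' hG).symm)
  refine HEqv.of_homeo (hF.clip hg) (hG.clip hg') φ h0 fun x => ?_
  rcases h x with h | ⟨h1, h2, h3⟩
  · show (⟨max (F x).re (-g x), (F x).im⟩ : ℂ) = ⟨max (G (φ x)).re (-g' (φ x)), (G (φ x)).im⟩
    rw [h, hgg]
  · show (⟨max (F x).re (-g x), (F x).im⟩ : ℂ) = ⟨max (G (φ x)).re (-g' (φ x)), (G (φ x)).im⟩
    rw [hgg, max_eq_right h1, max_eq_right h2, h3]

end

end Vale.Agent.P268.T
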