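import Mathlib

/-!
# P268, topological half: rotation fields

`rot a b v` is the rotation of the plane spanned by the unit vectors `a ≠ -b` carrying `a` to `b`
(identity on the orthogonal complement).
-/

set_option linter.unusedSectionVars false

namespace Vale.Agent.P268.T

open Set Filter Topology
open scoped RealInnerProductSpace

variable {V : Type*} [NormedAddCommGroup V] [InnerProductSpace ℝ V]

/-- Rotation carrying `a` to `b`. -/
noncomputable def rot (a b v : V) : V :=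
  v - (⟪a + b, v⟫ / (1 + ⟪a, b⟫)) • (a + b) + (2 * ⟪a, v⟫) • b

theorem rot_add (a b v w : V) : rot a b (v + w) = rot a b v + rot a b w := by
  unfold rot
  rw [inner_add_right, inner_add_right, add_div, add_smul, mul_add, add_smul]
  abel

theorem rot_smul (a b : V) (r : ℝ) (v : V) : rot a b (r • v) = r • rot a b v := by
  unfold rot
  rw [inner_smul_right, inner_smul_right]
  module

theorem rot_zero (a b : V) : rot a b 0 = 0 := by
  have := rot_smul a b 0 0
  simpa using this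

theorem rot_neg (a b v : V) : rot a b (-v) = -rot a b v := by
  have := rot_smul a b (-1) v
  simpa using this

theorem rot_sub (a b v w : V) : rot a b (v - w) = rot a b v - rot a b w := by
  rw [sub_eq_add_neg, rot_add, rot_neg, ← sub_eq_add_neg]

theorem rot_left {a b : V} (ha : ‖a‖ = 1) (h : 1 + ⟪a, b⟫ ≠ 0) : rot a b a = b := by
  unfold rot
  have h1 : ⟪a + b, a⟫ = 1 + ⟪a, b⟫ := by
    rw [inner_add_left, real_inner_self_eq_norm_sq, ha, real_inner_comm]; norm_num
  rw [h1, div_self h, one_smul, real_inner_self_eq_norm_sq, ha]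
  rw [one_pow, mul_one, two_smul]; abel

theorem rot_self {a : V} (ha : ‖a‖ = 1) (v : V) : rot a a v = v := by
  unfold rot
  have h1 : ⟪a + a, v⟫ = 2 * ⟪a, v⟫ := by rw [inner_add_left]; ring
  rw [h1, real_inner_self_eq_norm_sq, ha, ← two_smul ℝ a, smul_smul]
  have h2 : 2 * ⟪a, v⟫ / (1 + 1 ^ 2) * 2 = 2 * ⟪a, v⟫ := by ring
  rw [h2, sub_add_cancel]

theorem rot_inv {a b : V} (ha : ‖a‖ = 1) (hb : ‖b‖ = 1) (h : 1 + ⟪a, b⟫ ≠ 0) (v : V) :
    rot b a (rot a b v) = v := by
  have haa : ⟪a, a⟫ = 1 := by rw [real_inner_self_eq_norm_sq, ha]; norm_num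
  have hbb : ⟪b, b⟫ = 1 := by rw [real_inner_self_eq_norm_sq, hb]; norm_num
  have hba : ⟪b, a⟫ = ⟪a, b⟫ := real_inner_comm _ _
  unfold rot
  simp only [inner_add_left, inner_add_right, inner_sub_right, inner_smul_right, haa, hbb, hba]
  set p := ⟪a, v⟫
  set q := ⟪b, v⟫
  set c := ⟪a, b⟫
  match_scalars <;> field_simp <;> ring

theorem inner_rot {a b : V} (ha : ‖a‖ = 1) (hb : ‖b‖ = 1) (h : 1 + ⟪a, b⟫ ≠ 0) (v w : V) :
    ⟪rot a b v, rot a b w⟫ = ⟪v, w⟫ := by
  have haa : ⟪a, a⟫ = 1 := by rw [real_inner_self_eq_norm_sq, ha]; norm_num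
  have hbb : ⟪b, b⟫ = 1 := by rw [real_inner_self_eq_norm_sq, hb]; norm_num
  have hba : ⟪b, a⟫ = ⟪a, b⟫ := real_inner_comm _ _
  have hva : ⟪v, a⟫ = ⟪a, v⟫ := real_inner_comm _ _
  have hvb : ⟪v, b⟫ = ⟪b, v⟫ := real_inner_comm _ _
  unfold rot
  simp only [inner_add_left, inner_add_right, inner_sub_right, inner_sub_left, inner_smul_right,
    inner_smul_left, haa, hbb, hba, hva, hvb, RCLike.conj_to_real]
  field_simp
  ring

theorem norm_rot {a b : V} (ha : ‖a‖ = 1) (hb : ‖b‖ = 1) (h : 1 + ⟪a, b⟫ ≠ 0) (v : V) :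
    ‖rot a b v‖ = ‖v‖ := by
  have h1 := inner_rot ha hb h v v
  rw [real_inner_self_eq_norm_sq, real_inner_self_eq_norm_sq] at h1
  exact (pow_left_inj₀ (norm_nonneg _) (norm_nonneg _) two_ne_zero).mp h1

theorem continuousAt_rot {X : Type*} [TopologicalSpace X] {f g k : X → V} {x : X}
    (hf : ContinuousAt f x) (hg : ContinuousAt g x) (hk : ContinuousAt k x)
    (h : 1 + ⟪f x, g x⟫ ≠ 0) : ContinuousAt (fun y => rot (f y) (g y) (k y)) x := by
  unfold rot
  have h1 : ContinuousAt (fun y => ⟪f y + g y, k y⟫ / (1 + ⟪f y, g y⟫)) x :=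
    (ContinuousAt.inner (𝕜 := ℝ) (hf.add hg) hk).div (continuousAt_const.add (ContinuousAt.inner (𝕜 := ℝ) hf hg)) h
  exact (hk.sub (h1.smul (hf.add hg))).add ((continuousAt_const.mul (ContinuousAt.inner (𝕜 := ℝ) hf hk)).smul hg)

end Vale.Agent.P268.T
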