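import Vale.Agent.P268.T.H903.Germ
import Vale.Agent.P268.T.H903.Rot

/-!
# P268, topological half: fibrewise rotations

`RotField N e m`: a unit vector field `m` on `S ∖ 0`, homogeneous of degree `0`, never equal to
`-e`.  `RotField.phi`: the homeomorphism `(s, v) ↦ (h s, rot (m s) e v)` for `‖v‖ ≤ M N(s)`,
faded out to `(h s, v)` for `‖v‖ ≥ 2 M N(s)`.  `HEqv.of_rot`: transport of functions of class `H`.
-/

set_option linter.unusedSectionVars false

namespace Vale.Agent.P268.T

open Set Filter Topology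
open scoped RealInnerProductSpace

variable {S : Type} [NormedAddCommGroup S] [NormedSpace ℝ S]
  {S' : Type} [NormedAddCommGroup S'] [NormedSpace ℝ S']
  {V : Type} [NormedAddCommGroup V] [InnerProductSpace ℝ V]

/-- A field of unit vectors, never opposite to `e`. -/
structure RotField (N : S → ℝ) (e : V) (m : S → V) : Prop where
  gauge : Gauge N
  cont : ContinuousOn m {s | s ≠ 0}
  norm : ∀ s ≠ 0, ‖m s‖ = 1
  ne : ∀ s ≠ 0, 1 + ⟪m s, e⟫ ≠ 0
  he : ‖e‖ = 1

namespace RotField

variable {N : S → ℝ} {e : V} {m : S → V} {M : ℝ}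

/-- The interpolated field (not normalised). -/
noncomputable def pre (N : S → ℝ) (e : V) (m : S → V) (M : ℝ) (s : S) (r : ℝ) : V :=
  max (2 * M * N s - r) 0 • m s + max (r - M * N s) 0 • e

/-- The interpolated unit field. -/
noncomputable def uni (N : S → ℝ) (e : V) (m : S → V) (M : ℝ) (s : S) (r : ℝ) : V :=
  ‖pre N e m M s r‖⁻¹ • pre N e m M s r

theorem pre_le (N : S → ℝ) (e : V) (m : S → V) {M : ℝ} {s : S} {r : ℝ} (hr : r ≤ M * N s) :
    pre N e m M s r = max (2 * M * N s - r) 0 • m s := by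
  unfold pre
  rw [max_eq_right (by linarith : r - M * N s ≤ 0), zero_smul, add_zero]

theorem pre_ge (N : S → ℝ) (e : V) (m : S → V) {M : ℝ} {s : S} {r : ℝ} (hr : 2 * M * N s ≤ r) :
    pre N e m M s r = max (r - M * N s) 0 • e := by
  unfold pre
  rw [max_eq_right (by linarith : 2 * M * N s - r ≤ 0), zero_smul, zero_add]

theorem one_add_pos (h : RotField N e m) {s : S} (hs : s ≠ 0) : 0 < 1 + ⟪m s, e⟫ := by
  have h1 : |⟪m s, e⟫| ≤ 1 := by
    have := abs_real_inner_le_norm (m s) e
    rwa [h.norm s hs, h.he, one_mul] at this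
  have h2 := (abs_le.mp h1).1
  exact lt_of_le_of_ne (by linarith) (h.ne s hs).symm

theorem inner_pre_pos (h : RotField N e m) (hM : 0 < M) {s : S} {r : ℝ} (hr : 0 ≤ r)
    (h0 : s ≠ 0 ∨ 0 < r) :
    0 < ‖pre N e m M s r‖ ∧ 0 < ‖pre N e m M s r‖ + ⟪pre N e m M s r, e⟫ := by
  have hee : ⟪e, e⟫ = 1 := by rw [real_inner_self_eq_norm_sq, h.he]; norm_num
  by_cases hs : s = 0
  · have hr' : 0 < r := by
      rcases h0 with h0 | h0
      · exact absurd hs h0
      · exact h0
    have hN : N s = 0 := by rw [hs]; exact h.gauge.zero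
    have e1 : pre N e m M s r = r • e := by
      rw [pre_ge N e m (by rw [hN]; linarith), hN, mul_zero, sub_zero, max_eq_left hr]
    rw [e1, norm_smul, h.he, mul_one, Real.norm_of_nonneg hr, inner_smul_left, hee]
    simp only [RCLike.conj_to_real, mul_one]
    exact ⟨hr', by linarith⟩
  · have hN : 0 < N s := h.gauge.pos s hs
    set a := max (2 * M * N s - r) 0 with ha
    set b := max (r - M * N s) 0 with hb
    have ha0 : 0 ≤ a := le_max_right _ _
    have hb0 : 0 ≤ b := le_max_right _ _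
    have hab : 0 < a + b := by
      have h1 : 2 * M * N s - r ≤ a := le_max_left _ _
      have h2 : r - M * N s ≤ b := le_max_left _ _
      have h3 : 0 < M * N s := mul_pos hM hN
      linarith
    have hpre : pre N e m M s r = a • m s + b • e := rfl
    have hc := h.one_add_pos hs
    have hmm : ⟪m s, m s⟫ = 1 := by rw [real_inner_self_eq_norm_sq, h.norm s hs]; norm_num
    have hem : ⟪e, m s⟫ = ⟪m s, e⟫ := real_inner_comm _ _
    have hsq : ‖pre N e m M s r‖ ^ 2 = a ^ 2 + b ^ 2 + 2 * a * b * ⟪m s, e⟫ := by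
      rw [← real_inner_self_eq_norm_sq, hpre]
      simp only [inner_add_left, inner_add_right, inner_smul_left, inner_smul_right,
        RCLike.conj_to_real, hmm, hee, hem]
      ring
    have hin : ⟪pre N e m M s r, e⟫ = a * ⟪m s, e⟫ + b := by
      rw [hpre, inner_add_left, inner_smul_left, inner_smul_left, hee]
      simp
    have hc1 : ⟪m s, e⟫ ≤ 1 := by
      have := real_inner_le_norm (m s) e
      rwa [h.norm s hs, h.he, one_mul] at this
    set c := ⟪m s, e⟫ with hcdef
    have hnn := norm_nonneg (pre N e m M s r)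
    have hpos : 0 < a ^ 2 + b ^ 2 + 2 * a * b * c := by
      have e1 : a ^ 2 + b ^ 2 + 2 * a * b * c = (a - b) ^ 2 + 2 * (a * b) * (1 + c) := by ring
      rw [e1]
      by_cases hab' : a * b = 0
      · have : a ≠ b := by
          intro hab2
          rw [← hab2] at hab' hab
          have h5 : a = 0 := by simpa using hab'
          linarith
        have h6 : 0 < (a - b) ^ 2 := by
          have : a - b ≠ 0 := sub_ne_zero.mpr this
          positivity
        rw [hab']; linarith
      · have h5 : 0 < a * b := lt_of_le_of_ne (mul_nonneg ha0 hb0) (Ne.symm hab')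
        have h6 : 0 < 2 * (a * b) * (1 + c) := by positivity
        have h7 := sq_nonneg (a - b)
        linarith
    have hn : 0 < ‖pre N e m M s r‖ := by
      rcases hnn.eq_or_lt with h5 | h5
      · rw [← h5] at hsq
        simp at hsq
        linarith
      · exact h5
    refine ⟨hn, ?_⟩
    rw [hin]
    by_contra hcon
    push Not at hcon
    have h5 : ‖pre N e m M s r‖ ≤ -(a * c + b) := by linarith
    have h6 : ‖pre N e m M s r‖ ^ 2 ≤ (a * c + b) ^ 2 := by
      have := pow_le_pow_left₀ hnn h5 2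
      rwa [neg_sq] at this
    rw [hsq] at h6
    have h7 : a ^ 2 * (1 - c ^ 2) ≤ 0 := by nlinarith
    have h8 : 0 ≤ 1 - c := by linarith
    rcases ha0.eq_or_lt with h9 | h9
    · rw [← h9] at h5
      have : 0 < b := by linarith
      linarith
    · have h10 : 0 < a ^ 2 := by positivity
      have h11 : 1 - c ^ 2 ≤ 0 := by
        by_contra h12
        push Not at h12
        have := mul_pos h10 h12
        linarith
      have h12 : (1 - c) * (1 + c) ≤ 0 := by nlinarith
      have h13 : 1 - c ≤ 0 := by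
        by_contra h14
        push Not at h14
        have := mul_pos h14 hc
        linarith
      have h14 : c = 1 := by linarith
      rw [h14] at h5
      linarith

theorem norm_uni (h : RotField N e m) (hM : 0 < M) {s : S} {r : ℝ} (hr : 0 ≤ r)
    (h0 : s ≠ 0 ∨ 0 < r) : ‖uni N e m M s r‖ = 1 := by
  have h1 := (h.inner_pre_pos hM hr h0).1
  unfold uni
  rw [norm_smul, norm_inv, norm_norm, inv_mul_cancel₀ h1.ne']

theorem uni_ne (h : RotField N e m) (hM : 0 < M) {s : S} {r : ℝ} (hr : 0 ≤ r)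
    (h0 : s ≠ 0 ∨ 0 < r) : 1 + ⟪uni N e m M s r, e⟫ ≠ 0 := by
  obtain ⟨h1, h2⟩ := h.inner_pre_pos hM hr h0
  unfold uni
  rw [inner_smul_left, RCLike.conj_to_real]
  have e1 : 1 + ‖pre N e m M s r‖⁻¹ * ⟪pre N e m M s r, e⟫ =
      ‖pre N e m M s r‖⁻¹ * (‖pre N e m M s r‖ + ⟪pre N e m M s r, e⟫) := by
    field_simp
  rw [e1]
  positivity

theorem uni_of_le (h : RotField N e m) (hM : 0 < M) {s : S} (hs : s ≠ 0) {r : ℝ}
    (hr : r ≤ M * N s) : uni N e m M s r = m s := by
  have hN : 0 < N s := h.gauge.pos s hs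
  have h3 : 0 < M * N s := mul_pos hM hN
  have ha : 0 < 2 * M * N s - r := by linarith
  unfold uni
  rw [pre_le N e m hr, max_eq_left ha.le, norm_smul, h.norm s hs, mul_one,
    Real.norm_of_nonneg ha.le, smul_smul, inv_mul_cancel₀ ha.ne', one_smul]

theorem uni_of_ge (h : RotField N e m) (hM : 0 < M) {s : S} {r : ℝ} (hr : 2 * M * N s ≤ r)
    (h0 : s ≠ 0 ∨ 0 < r) : uni N e m M s r = e := by
  have hb : 0 < r - M * N s := by
    by_cases hs : s = 0
    · have : 0 < r := by
        rcases h0 with h0 | h0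
        · exact absurd hs h0
        · exact h0
      rw [hs, h.gauge.zero]; linarith
    · have := mul_pos hM (h.gauge.pos s hs)
      linarith
  unfold uni
  rw [pre_ge N e m hr, max_eq_left hb.le, norm_smul, h.he, mul_one, Real.norm_of_nonneg hb.le,
    smul_smul, inv_mul_cancel₀ hb.ne', one_smul]

theorem continuousAt_smul_field (h : RotField N e m) {f : S → ℝ → ℝ}
    (hf : Continuous fun p : S × ℝ => f p.1 p.2) (hf0 : ∀ r, 0 ≤ r → f 0 r = 0) (p : S × ℝ)
    (hp : 0 ≤ p.2) : ContinuousWithinAt (fun p : S × ℝ => f p.1 p.2 • m p.1) {p | 0 ≤ p.2} p := by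
  by_cases hs : p.1 = 0
  · have h0 : f p.1 p.2 = 0 := by rw [hs]; exact hf0 _ hp
    rw [ContinuousWithinAt, h0, zero_smul]
    refine squeeze_zero_norm' (a := fun q : S × ℝ => |f q.1 q.2|) ?_ ?_
    · filter_upwards [self_mem_nhdsWithin] with q hq
      rw [norm_smul, Real.norm_eq_abs]
      by_cases hq0 : q.1 = 0
      · rw [hq0, hf0 _ hq]; simp
      · rw [h.norm _ hq0, mul_one]
    · have h1 : Tendsto (fun q : S × ℝ => |f q.1 q.2|) (𝓝[{p : S × ℝ | 0 ≤ p.2}] p)
          (𝓝 |f p.1 p.2|) := (hf.abs.continuousAt (x := p)).mono_left nhdsWithin_le_nhds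
      rw [h0, abs_zero] at h1
      exact h1
  · have h1 : ContinuousAt m p.1 := h.cont.continuousAt (isOpen_ne.mem_nhds hs)
    exact (hf.continuousAt.smul (h1.comp (f := Prod.fst) (x := p) continuousAt_fst)).continuousWithinAt

theorem continuousAt_pre (h : RotField N e m) (p : S × ℝ) (hp : 0 ≤ p.2) :
    ContinuousWithinAt (fun p : S × ℝ => pre N e m M p.1 p.2) {p | 0 ≤ p.2} p := by
  unfold pre
  have hN : Continuous fun p : S × ℝ => N p.1 := h.gauge.cont.comp continuous_fst
  refine ContinuousWithinAt.add ?_ ?_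
  · refine h.continuousAt_smul_field (f := fun s r => max (2 * M * N s - r) 0) ?_ ?_ p hp
    · exact ((continuous_const.mul hN).sub continuous_snd).max continuous_const
    · intro r hr
      show max (2 * M * N 0 - r) 0 = 0
      rw [h.gauge.zero, mul_zero, zero_sub]
      exact max_eq_right (by linarith)
  · have : Continuous fun p : S × ℝ => max (p.2 - M * N p.1) 0 • e :=
      (((continuous_snd).sub (continuous_const.mul hN)).max continuous_const).smul continuous_const
    exact this.continuousWithinAt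

theorem continuousAt_uni (h : RotField N e m) (hM : 0 < M) (p : S × ℝ) (hp : 0 ≤ p.2)
    (h0 : p.1 ≠ 0 ∨ 0 < p.2) :
    ContinuousWithinAt (fun p : S × ℝ => uni N e m M p.1 p.2) {p | 0 ≤ p.2} p := by
  unfold uni
  have h1 := h.continuousAt_pre (M := M) p hp
  exact (h1.norm.inv₀ (h.inner_pre_pos hM hp h0).1.ne').smul h1

theorem continuousAt_comp_norm {g : S × ℝ → V} {p : S × V}
    (hg : ContinuousWithinAt g {p | 0 ≤ p.2} (p.1, ‖p.2‖)) :
    ContinuousAt (fun q : S × V => g (q.1, ‖q.2‖)) p := by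
  have h3 : Tendsto (fun q : S × V => (q.1, ‖q.2‖)) (𝓝 p) (𝓝 (p.1, ‖p.2‖)) :=
    (continuous_fst.prodMk (continuous_norm.comp continuous_snd)).tendsto p
  have h4 : Tendsto (fun q : S × V => (q.1, ‖q.2‖)) (𝓝 p)
      (𝓝[{p : S × ℝ | 0 ≤ p.2}] (p.1, ‖p.2‖)) :=
    tendsto_nhdsWithin_iff.mpr ⟨h3, Eventually.of_forall fun q => norm_nonneg _⟩
  exact Tendsto.comp (g := g) hg h4

theorem continuousAt_uni' (h : RotField N e m) (hM : 0 < M) (p : S × V)
    (h0 : p.1 ≠ 0 ∨ 0 < ‖p.2‖) :
    ContinuousAt (fun q : S × V => uni N e m M q.1 ‖q.2‖) p :=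
  continuousAt_comp_norm (g := fun q : S × ℝ => uni N e m M q.1 q.2)
    (h.continuousAt_uni hM (p.1, ‖p.2‖) (norm_nonneg _) h0)

theorem tendsto_norm_snd (p : S × V) (hp : p.2 = 0) :
    Tendsto (fun q : S × V => ‖q.2‖) (𝓝 p) (𝓝 0) := by
  have h1 : Continuous fun q : S × V => ‖q.2‖ := continuous_norm.comp continuous_snd
  have h2 := h1.tendsto p
  simpa [hp] using h2

/-- The fibre map and its inverse are continuous. -/
theorem continuous_fib (h : RotField N e m) (hM : 0 < M) :
    Continuous fun p : S × V => rot (uni N e m M p.1 ‖p.2‖) e p.2 := by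
  rw [continuous_iff_continuousAt]
  intro p
  by_cases hp : p.2 = 0
  · have e0 : rot (uni N e m M p.1 ‖p.2‖) e p.2 = 0 := by rw [hp, rot_zero]
    rw [ContinuousAt, e0]
    refine squeeze_zero_norm (a := fun q : S × V => ‖q.2‖) (fun q => ?_) ?_
    · by_cases hq : q.2 = 0
      · rw [hq, rot_zero, norm_zero]
      · have h1 : q.1 ≠ 0 ∨ 0 < ‖q.2‖ := Or.inr (norm_pos_iff.mpr hq)
        exact (norm_rot (h.norm_uni hM (norm_nonneg _) h1) h.he (h.uni_ne hM (norm_nonneg _) h1)
          q.2).le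
    · exact tendsto_norm_snd p hp
  · have h1 : p.1 ≠ 0 ∨ 0 < ‖p.2‖ := Or.inr (norm_pos_iff.mpr hp)
    exact continuousAt_rot (h.continuousAt_uni' hM p h1) continuousAt_const continuousAt_snd
      (h.uni_ne hM (norm_nonneg _) h1)

theorem continuous_fib_inv (h : RotField N e m) (hM : 0 < M) :
    Continuous fun p : S × V => rot e (uni N e m M p.1 ‖p.2‖) p.2 := by
  rw [continuous_iff_continuousAt]
  intro p
  by_cases hp : p.2 = 0
  · have e0 : rot e (uni N e m M p.1 ‖p.2‖) p.2 = 0 := by rw [hp, rot_zero]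
    rw [ContinuousAt, e0]
    refine squeeze_zero_norm (a := fun q : S × V => ‖q.2‖) (fun q => ?_) ?_
    · by_cases hq : q.2 = 0
      · rw [hq, rot_zero, norm_zero]
      · have h1 : q.1 ≠ 0 ∨ 0 < ‖q.2‖ := Or.inr (norm_pos_iff.mpr hq)
        refine (norm_rot h.he (h.norm_uni hM (norm_nonneg _) h1) ?_ q.2).le
        rw [real_inner_comm]
        exact h.uni_ne hM (norm_nonneg _) h1
    · exact tendsto_norm_snd p hp
  · have h1 : p.1 ≠ 0 ∨ 0 < ‖p.2‖ := Or.inr (norm_pos_iff.mpr hp)
    refine continuousAt_rot continuousAt_const (h.continuousAt_uni' hM p h1) continuousAt_snd ?_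
    rw [real_inner_comm]
    exact h.uni_ne hM (norm_nonneg _) h1

/-- **The fibrewise rotation**, combined with a homeomorphism of the base. -/
noncomputable def phi (h : RotField N e m) (hM : 0 < M) (k : S ≃ₜ S') : S × V ≃ₜ S' × V where
  toFun p := (k p.1, rot (uni N e m M p.1 ‖p.2‖) e p.2)
  invFun q := (k.symm q.1, rot e (uni N e m M (k.symm q.1) ‖q.2‖) q.2)
  left_inv p := by
    by_cases hp : p.2 = 0
    · refine Prod.ext (k.symm_apply_apply _) ?_
      show rot _ _ (rot _ e p.2) = p.2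
      rw [hp, rot_zero, rot_zero]
    · have h1 : p.1 ≠ 0 ∨ 0 < ‖p.2‖ := Or.inr (norm_pos_iff.mpr hp)
      have hu := h.norm_uni hM (norm_nonneg _) h1
      have hn := h.uni_ne hM (norm_nonneg _) h1
      refine Prod.ext (k.symm_apply_apply _) ?_
      show rot e (uni N e m M (k.symm (k p.1)) ‖rot (uni N e m M p.1 ‖p.2‖) e p.2‖)
        (rot (uni N e m M p.1 ‖p.2‖) e p.2) = p.2
      rw [norm_rot hu h.he hn, k.symm_apply_apply, rot_inv hu h.he hn]
  right_inv q := by
    by_cases hq : q.2 = 0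
    · refine Prod.ext (k.apply_symm_apply _) ?_
      show rot _ e (rot e _ q.2) = q.2
      rw [hq, rot_zero, rot_zero]
    · have h1 : k.symm q.1 ≠ 0 ∨ 0 < ‖q.2‖ := Or.inr (norm_pos_iff.mpr hq)
      have hu := h.norm_uni hM (norm_nonneg _) h1
      have hn := h.uni_ne hM (norm_nonneg _) h1
      rw [real_inner_comm] at hn
      refine Prod.ext (k.apply_symm_apply _) ?_
      show rot (uni N e m M (k.symm q.1) ‖rot e (uni N e m M (k.symm q.1) ‖q.2‖) q.2‖) e
        (rot e (uni N e m M (k.symm q.1) ‖q.2‖) q.2) = q.2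
      rw [norm_rot h.he hu hn, rot_inv h.he hu hn]
  continuous_toFun := (k.continuous.comp continuous_fst).prodMk (h.continuous_fib hM)
  continuous_invFun := by
    have h1 : Continuous fun q : S' × V => (k.symm q.1, q.2) :=
      (k.symm.continuous.comp continuous_fst).prodMk continuous_snd
    exact (k.symm.continuous.comp continuous_fst).prodMk ((h.continuous_fib_inv hM).comp h1)

variable (h : RotField N e m) (hM : 0 < M) (k : S ≃ₜ S')

theorem phi_fst (p : S × V) : (h.phi hM k p).1 = k p.1 := rfl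

theorem phi_snd (p : S × V) : (h.phi hM k p).2 = rot (uni N e m M p.1 ‖p.2‖) e p.2 := rfl

theorem norm_phi_snd (p : S × V) : ‖(h.phi hM k p).2‖ = ‖p.2‖ := by
  rw [phi_snd]
  by_cases hp : p.2 = 0
  · rw [hp, rot_zero]
  · have h1 : p.1 ≠ 0 ∨ 0 < ‖p.2‖ := Or.inr (norm_pos_iff.mpr hp)
    exact norm_rot (h.norm_uni hM (norm_nonneg _) h1) h.he (h.uni_ne hM (norm_nonneg _) h1) _

theorem phi_zero (hk : k 0 = 0) : h.phi hM k 0 = 0 := by
  refine Prod.ext hk ?_
  show rot _ e (0 : V) = 0
  exact rot_zero _ _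

theorem phi_of_le {s : S} (hs : s ≠ 0) {v : V} (hv : ‖v‖ ≤ M * N s) :
    h.phi hM k (s, v) = (k s, rot (m s) e v) := by
  refine Prod.ext rfl ?_
  show rot (uni N e m M s ‖v‖) e v = _
  rw [h.uni_of_le hM hs hv]

end RotField

/-- **Transport along a fibrewise rotation and a homeomorphism of the base.** -/
theorem HEqv.of_rot [FiniteDimensional ℝ S] [FiniteDimensional ℝ S'] [FiniteDimensional ℝ V]
    {N : S → ℝ} {e : V} {m : S → V} {M η : ℝ} (h : RotField N e m) (hM : 0 < M) (hη : 0 < η)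
    (k : S ≃ₜ S') (hk : Hom1 k) {F : S × V → ℂ} {G : S' × V → ℂ} (hF : HFun F) (hG : HFun G)
    (near : ∀ s ≠ 0, ∀ v, ‖v‖ ≤ M * N s → F (s, v) = G (k s, rot (m s) e v))
    (farF : ∀ s v, M * N s < ‖v‖ → (F (s, v)).re ≤ -(η * ‖v‖) ∧ (F (s, v)).im = 0)
    (farG : ∀ s v, M * N s < ‖v‖ → (G (k s, v)).re ≤ -(η * ‖v‖) ∧ (G (k s, v)).im = 0) :
    HEqv F G := by
  have hk0 : k 0 = 0 := by
    have := hk 0 le_rfl 0
    simpa using this
  set η' := η * M / (M + 1) with hη'
  have hM1 : 0 < M + 1 := by linarith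
  have hη'0 : 0 < η' := by positivity
  have hks : ∀ s' ≠ 0, k.symm s' ≠ 0 := fun s' hs' h0 => hs' (by
    rw [← k.apply_symm_apply s', h0, hk0])
  have hksym : ∀ r : ℝ, 0 ≤ r → ∀ s', k.symm (r • s') = r • k.symm s' := fun r hr s' => by
    rw [k.symm_apply_eq, hk r hr, k.apply_symm_apply]
  have hg : Gauge (fun p : S × V => η' * (N p.1 + ‖p.2‖)) := by
    refine Gauge.smul (g := fun p : S × V => N p.1 + ‖p.2‖) ⟨?_, ?_, ?_⟩ hη'0
    · exact (h.gauge.cont.comp continuous_fst).add continuous_snd.norm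
    · intro r hr p
      show N (r • p.1) + ‖r • p.2‖ = r * (N p.1 + ‖p.2‖)
      rw [h.gauge.hom r hr, norm_smul, Real.norm_of_nonneg hr, mul_add]
    · intro p hp
      by_cases h1 : p.1 = 0
      · have h2 : p.2 ≠ 0 := fun h2 => hp (Prod.ext h1 h2)
        rw [h1, h.gauge.zero, zero_add]
        exact norm_pos_iff.mpr h2
      · have := h.gauge.pos _ h1
        have := norm_nonneg p.2
        linarith
  have hg' : Gauge (fun p : S' × V => η' * (N (k.symm p.1) + ‖p.2‖)) := by
    refine Gauge.smul (g := fun p : S' × V => N (k.symm p.1) + ‖p.2‖) ⟨?_, ?_, ?_⟩ hη'0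
    · exact (h.gauge.cont.comp (k.symm.continuous.comp continuous_fst)).add continuous_snd.norm
    · intro r hr p
      show N (k.symm (r • p.1)) + ‖r • p.2‖ = r * (N (k.symm p.1) + ‖p.2‖)
      rw [hksym r hr, h.gauge.hom r hr, norm_smul, Real.norm_of_nonneg hr, mul_add]
    · intro p hp
      by_cases h1 : p.1 = 0
      · have h2 : p.2 ≠ 0 := fun h2 => hp (Prod.ext h1 h2)
        have h3 : k.symm p.1 = 0 := by rw [h1, k.symm_apply_eq, hk0]
        rw [h3, h.gauge.zero, zero_add]
        exact norm_pos_iff.mpr h2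
      · have := h.gauge.pos _ (hks _ h1)
        have := norm_nonneg p.2
        linarith
  refine HEqv.of_homeo_clip hF hG (h.phi hM k) (h.phi_zero hM k hk0) hg hg' (fun p => ?_)
    (fun p => ?_)
  · show η' * (N (k.symm (h.phi hM k p).1) + ‖(h.phi hM k p).2‖) = η' * (N p.1 + ‖p.2‖)
    rw [h.norm_phi_snd, h.phi_fst, k.symm_apply_apply]
  · obtain ⟨s, v⟩ := p
    by_cases hv : ‖v‖ ≤ M * N s
    · left
      by_cases hs : s = 0
      · have hv0 : v = 0 := by
          rw [hs, h.gauge.zero, mul_zero] at hv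
          exact norm_le_zero_iff.mp hv
        rw [hs, hv0]
        have e1 : ((0 : S), (0 : V)) = 0 := rfl
        rw [e1, h.phi_zero hM k hk0, hF.hom1.zero, hG.hom1.zero]
      · rw [h.phi_of_le hM k hs hv]
        exact near s hs v hv
    · right
      push Not at hv
      have h1 := farF s v hv
      have h2 := farG s (h.phi hM k (s, v)).2 (by rw [h.norm_phi_snd]; exact hv)
      rw [h.norm_phi_snd] at h2
      have e1 : h.phi hM k (s, v) = (k s, (h.phi hM k (s, v)).2) := rfl
      have hg1 : η' * (N s + ‖v‖) ≤ η * ‖v‖ := by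
        have h3 : N s < ‖v‖ / M := by rw [lt_div_iff₀ hM]; linarith
        have h4 : η' * (N s + ‖v‖) ≤ η' * (‖v‖ / M + ‖v‖) :=
          mul_le_mul_of_nonneg_left (by linarith) hη'0.le
        have h5 : η' * (‖v‖ / M + ‖v‖) = η * ‖v‖ := by
          rw [hη']; field_simp; ring
        linarith
      refine ⟨?_, ?_, ?_⟩
      · show (F (s, v)).re ≤ -(η' * (N s + ‖v‖))
        linarith [h1.1]
      · rw [e1]
        show (G (k s, (h.phi hM k (s, v)).2)).re ≤ -(η' * (N s + ‖v‖))
        linarith [h2.1]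
      · rw [e1, h1.2]
        exact h2.2.symm

end Vale.Agent.P268.T
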