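import Vale.Agent.P268.T.H903.Phi

/-!
# P268, topological half: fibrewise rotations, zero sets only

`VEq.of_rot`: transport of zero sets along a fibrewise rotation and a homeomorphism of the base
(no regularity is needed).  `RFam.of_germ`, `VEq.of_germ`: straight paths in class `R`.
-/

set_option linter.unusedSectionVars false

namespace Vale.Agent.P268.T

open Set Filter Topology
open scoped RealInnerProductSpace

section

variable {S : Type} [NormedAddCommGroup S] [NormedSpace ℝ S]
  {S' : Type} [NormedAddCommGroup S'] [NormedSpace ℝ S']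
  {V : Type} [NormedAddCommGroup V] [InnerProductSpace ℝ V]
  {Z : Type*} [Zero Z] {Z' : Type*} [Zero Z']

/-- **Transport of zero sets along a fibrewise rotation and a homeomorphism of the base.** -/
theorem VEq.of_rot {N : S → ℝ} {e : V} {m : S → V} {M : ℝ} (h : RotField N e m) (hM : 0 < M)
    (k : S ≃ₜ S') (hk0 : k 0 = 0) {F : S × V → Z} {G : S' × V → Z'} (h0 : F 0 = 0 ↔ G 0 = 0)
    (near : ∀ s ≠ 0, ∀ v, ‖v‖ ≤ M * N s → (F (s, v) = 0 ↔ G (k s, rot (m s) e v) = 0))
    (farF : ∀ s v, M * N s < ‖v‖ → F (s, v) ≠ 0)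
    (farG : ∀ s v, M * N s < ‖v‖ → G (k s, v) ≠ 0) : VEq F G := by
  refine ⟨h.phi hM k, h.phi_zero hM k hk0, fun p => ?_⟩
  obtain ⟨s, v⟩ := p
  by_cases hv : ‖v‖ ≤ M * N s
  · by_cases hs : s = 0
    · have hv0 : v = 0 := by
        rw [hs, h.gauge.zero, mul_zero] at hv
        exact norm_le_zero_iff.mp hv
      rw [hs, hv0]
      have e1 : ((0 : S), (0 : V)) = 0 := rfl
      rw [e1, h.phi_zero hM k hk0]
      exact h0
    · rw [h.phi_of_le hM k hs hv]
      exact near s hs v hv
  · push Not at hv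
    have h1 := farF s v hv
    have h2 := farG s (h.phi hM k (s, v)).2 (by rw [h.norm_phi_snd]; exact hv)
    have e1 : h.phi hM k (s, v) = (k s, (h.phi hM k (s, v)).2) := rfl
    rw [e1]
    exact ⟨fun h3 => absurd h3 h1, fun h3 => absurd h3 h2⟩

/-- The version where the zeros are known to satisfy `‖v‖ ≤ M N(s)`. -/
theorem VEq.of_rot' {N : S → ℝ} {e : V} {m : S → V} {M : ℝ} (h : RotField N e m) (hM : 0 < M)
    (k : S ≃ₜ S') (hk0 : k 0 = 0) {F : S × V → Z} {G : S' × V → Z'} (hF0 : F 0 = 0)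
    (hG0 : G 0 = 0)
    (near : ∀ s ≠ 0, ∀ v, ‖v‖ ≤ M * N s → (F (s, v) = 0 ↔ G (k s, rot (m s) e v) = 0))
    (farF : ∀ s v, F (s, v) = 0 → ‖v‖ ≤ M * N s)
    (farG : ∀ s v, G (k s, v) = 0 → ‖v‖ ≤ M * N s) : VEq F G :=
  VEq.of_rot h hM k hk0 (by rw [hF0, hG0]; simp) near
    (fun s v hv h0 => absurd (farF s v h0) (not_le.mpr hv))
    (fun s v hv h0 => absurd (farG s v h0) (not_le.mpr hv))

end

section

variable {E : Type*} [NormedAddCommGroup E] [NormedSpace ℝ E]
  {Z : Type*} [NormedAddCommGroup Z] [NormedSpace ℝ Z]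

/-- The straight path between two functions which have the same germ wherever the segment of
values contains `0`. -/
theorem RFam.of_germ {F G : E → Z} (hFc : Continuous F) (hGc : Continuous G) (hFh : Hom1 F)
    (hGh : Hom1 G) (hF : ∀ x ≠ 0, F x = 0 → RegAt (univ : Set Unit) (fun _ => F) () x)
    (h : ∀ x ≠ 0, (∃ t ∈ Icc (0 : ℝ) 1, F x + t • (G x - F x) = 0) → ∀ᶠ y in 𝓝 x, F y = G y) :
    RFam (Icc (0 : ℝ) 1) (fun t x => F x + t • (G x - F x)) where
  cont := by
    have h1 : Continuous fun p : ℝ × E => F p.2 + p.1 • (G p.2 - F p.2) :=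
      (hFc.comp continuous_snd).add
        (continuous_fst.smul ((hGc.comp continuous_snd).sub (hFc.comp continuous_snd)))
    exact h1.continuousOn
  hom := fun t _ r hr x => by
    show F (r • x) + t • (G (r • x) - F (r • x)) = r • (F x + t • (G x - F x))
    rw [hFh r hr, hGh r hr, ← smul_sub, smul_comm t r, ← smul_add]
  reg := by
    intro t ht x hx h0
    have h2 := h x hx ⟨t, ht, h0⟩
    have h3 : F x = G x := h2.self_of_nhds
    have h4 : F x = 0 := by
      have h5 : F x + t • (G x - F x) = 0 := h0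
      rwa [← h3, sub_self, smul_zero, add_zero] at h5
    refine ((hF x hx h4).const _ t).congr ⟨{y | F y = G y}, h2, Eventually.of_forall ?_⟩
    intro t' y hy
    have hy' : F y = G y := hy
    show F y = F y + t' • (G y - F y)
    rw [← hy', sub_self, smul_zero, add_zero]

/-- **Germ lemma in class `R`.** -/
theorem VEq.of_germ [ProperSpace E] [CompleteSpace Z] {F G : E → Z} (hFc : Continuous F)
    (hGc : Continuous G) (hFh : Hom1 F) (hGh : Hom1 G)
    (hF : ∀ x ≠ 0, F x = 0 → RegAt (univ : Set Unit) (fun _ => F) () x)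
    (h : ∀ x ≠ 0, (∃ t ∈ Icc (0 : ℝ) 1, F x + t • (G x - F x) = 0) → ∀ᶠ y in 𝓝 x, F y = G y) :
    VEq F G := by
  have h1 := (RFam.of_germ hFc hGc hFh hGh hF h).veq_Icc
  have e0 : (fun x => F x + (0 : ℝ) • (G x - F x)) = F := by funext x; simp
  have e1 : (fun x => F x + (1 : ℝ) • (G x - F x)) = G := by funext x; simp
  rw [e0, e1] at h1
  exact h1

end

end Vale.Agent.P268.T
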