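import Vale.Agent.P268.T.H903.Zero
import Vale.Agent.P268.T.B4.Theta921

/-!
# P268, topological half: transport of the K-form to the START function over `ℝ × P`

* `PZ h0 h1 c n v`: the zero condition of one slab (height `h0 ‖v‖`, imaginary part `⟪v, n⟫`) and
  sheets (heights `h1 a ‖v - c a‖`, imaginary parts `⟪v - c a, n⟫`).
* `veq_PZ`: two functions with zero sets `PZ` of data which correspond to each other under a
  homeomorphism of the base and a fibrewise rotation are `VEq`.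
* `veq_start`: the instance: base homeomorphism `Θ`, rotation field `absDir (nu u)`.
* `plate_zero_iff`: the zero set of a function given by its real part (maximum of heights) and by
  the values of its imaginary part at the active heights.
-/

set_option linter.unusedSectionVars false

namespace Vale.Agent.P268.T

open Set Filter Topology
open scoped RealInnerProductSpace

section

variable {S : Type} [NormedAddCommGroup S] [NormedSpace ℝ S]
  {S' : Type} [NormedAddCommGroup S'] [NormedSpace ℝ S']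
  {V : Type} [NormedAddCommGroup V] [InnerProductSpace ℝ V] {σ : Type*}
  {Z : Type*} [Zero Z] {Z' : Type*} [Zero Z']

/-- The zero condition of a plate function with one slab and sheets. -/
def PZ (h0 : ℝ → ℝ) (h1 : σ → ℝ → ℝ) (c : σ → V) (n v : V) : Prop :=
  (h0 ‖v‖ = 0 ∧ (∀ a, h1 a ‖v - c a‖ ≤ 0) ∧ ⟪v, n⟫ = 0) ∨
  ∃ a, h1 a ‖v - c a‖ = 0 ∧ h0 ‖v‖ ≤ 0 ∧ (∀ b, h1 b ‖v - c b‖ ≤ 0) ∧ ⟪v - c a, n⟫ = 0

theorem PZ.congr {h0 h0' : ℝ → ℝ} {h1 h1' : σ → ℝ → ℝ} {c : σ → V} {n v : V}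
    (e0 : ∀ t, 0 ≤ t → SameSign (h0 t) (h0' t)) (e1 : ∀ a t, 0 ≤ t → SameSign (h1 a t) (h1' a t)) :
    PZ h0 h1 c n v ↔ PZ h0' h1' c n v := by
  have a0 := e0 ‖v‖ (norm_nonneg _)
  have a1 := fun a => e1 a ‖v - c a‖ (norm_nonneg _)
  unfold PZ
  refine or_congr (and_congr a0.1 (and_congr (forall_congr' fun a => (a1 a).le) Iff.rfl))
    (exists_congr fun a => and_congr (a1 a).1 (and_congr a0.le (and_congr
      (forall_congr' fun b => (a1 b).le) Iff.rfl)))

theorem PZ.congr_data {h0 : ℝ → ℝ} {h1 : σ → ℝ → ℝ} {c c' : σ → V} {n n' v : V}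
    (ec : ∀ a, c a = c' a) {r : ℝ} (hr : r ≠ 0) (en : n' = r • n) :
    PZ h0 h1 c n v ↔ PZ h0 h1 c' n' v := by
  have e1 : c = c' := funext ec
  subst e1
  have e2 : ∀ w : V, ⟪w, n⟫ = 0 ↔ ⟪w, n'⟫ = 0 := by
    intro w
    rw [en, inner_smul_right]
    simp [hr]
  unfold PZ
  simp only [e2]

theorem PZ.rot_iff {m e : V} (hm : ‖m‖ = 1) (he : ‖e‖ = 1) (h : 1 + ⟪m, e⟫ ≠ 0) {h0 : ℝ → ℝ}
    {h1 : σ → ℝ → ℝ} {c : σ → V} {n v : V} :
    PZ h0 h1 (fun a => rot m e (c a)) (rot m e n) (rot m e v) ↔ PZ h0 h1 c n v := by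
  unfold PZ
  simp only [← rot_sub, norm_rot hm he h, inner_rot hm he h]

/-- The zero condition in terms of one maximum. -/
theorem PZ_iff_option {h0 : ℝ → ℝ} {h1 : σ → ℝ → ℝ} {c : σ → V} {n v : V}
    {rho be : Option σ → ℝ} (r0 : rho none = h0 ‖v‖) (r1 : ∀ a, rho (some a) = h1 a ‖v - c a‖)
    (b0 : rho none = 0 → (be none = 0 ↔ ⟪v, n⟫ = 0))
    (b1 : ∀ a, rho (some a) = 0 → (be (some a) = 0 ↔ ⟪v - c a, n⟫ = 0)) :
    (∃ o, rho o = 0 ∧ (∀ o', rho o' ≤ 0) ∧ be o = 0) ↔ PZ h0 h1 c n v := by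
  constructor
  · rintro ⟨o, ho, hall, hb⟩
    have hn : h0 ‖v‖ ≤ 0 := r0 ▸ hall none
    have hs : ∀ b, h1 b ‖v - c b‖ ≤ 0 := fun b => r1 b ▸ hall (some b)
    cases o with
    | none => exact Or.inl ⟨r0 ▸ ho, hs, (b0 ho).mp hb⟩
    | some a => exact Or.inr ⟨a, r1 a ▸ ho, hn, hs, (b1 a ho).mp hb⟩
  · rintro (⟨h2, h3, h4⟩ | ⟨a, h2, h3, h4, h5⟩)
    · have ho : rho none = 0 := r0.trans h2
      refine ⟨none, ho, fun o' => ?_, (b0 ho).mpr h4⟩
      cases o' with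
      | none => exact ho.le
      | some b => rw [r1]; exact h3 b
    · have ho : rho (some a) = 0 := (r1 a).trans h2
      refine ⟨some a, ho, fun o' => ?_, (b1 a ho).mpr h5⟩
      cases o' with
      | none => rw [r0]; exact h3
      | some b => rw [r1]; exact h4 b

/-- **Transport.**  Zero sets `PZ` whose data correspond under a homeomorphism of the base and a
fibrewise rotation. -/
theorem veq_PZ {N : S → ℝ} {e : V} {m : S → V} {M : ℝ} (h : RotField N e m) (hM : 0 < M)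
    (k : S ≃ₜ S') (hk0 : k 0 = 0) {F : S × V → Z} {G : S' × V → Z'}
    (hF0 : ∀ v, F (0, v) = 0 ↔ v = 0) (hG0 : ∀ v, G (0, v) = 0 ↔ v = 0)
    {h0 : S → ℝ → ℝ} {h1 : σ → S → ℝ → ℝ} {c : σ → S → V} {n : S → V}
    {h0' : S' → ℝ → ℝ} {h1' : σ → S' → ℝ → ℝ} {c' : σ → S' → V} {n' : S' → V}
    (hF : ∀ s ≠ 0, ∀ v, F (s, v) = 0 ↔ PZ (h0 s) (fun a => h1 a s) (fun a => c a s) (n s) v)
    (hG : ∀ s ≠ 0, ∀ v, G (s, v) = 0 ↔
      PZ (h0' s) (fun a => h1' a s) (fun a => c' a s) (n' s) v)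
    (e0 : ∀ s ≠ 0, ∀ t, 0 ≤ t → SameSign (h0 s t) (h0' (k s) t))
    (e1 : ∀ a, ∀ s ≠ 0, ∀ t, 0 ≤ t → SameSign (h1 a s t) (h1' a (k s) t))
    (ec : ∀ a, ∀ s ≠ 0, c' a (k s) = rot (m s) e (c a s))
    (en : ∀ s ≠ 0, ∃ r : ℝ, r ≠ 0 ∧ n' (k s) = r • rot (m s) e (n s))
    (b0 : ∀ s ≠ 0, ∀ t, 0 ≤ t → h0 s t = 0 → t ≤ M * N s)
    (b1 : ∀ a, ∀ s ≠ 0, ∀ t, 0 ≤ t → h1 a s t = 0 → t + ‖c a s‖ ≤ M * N s) : VEq F G := by
  have key : ∀ s ≠ 0, ∀ v, G (k s, rot (m s) e v) = 0 ↔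
      PZ (h0 s) (fun a => h1 a s) (fun a => c a s) (n s) v := by
    intro s hs v
    have hks : k s ≠ 0 := fun h0 => hs (k.injective (h0.trans hk0.symm))
    obtain ⟨r, hr, hn⟩ := en s hs
    rw [hG (k s) hks, ← PZ.congr (e0 s hs) (fun a t ht => e1 a s hs t ht),
      ← PZ.congr_data (c := fun a => rot (m s) e (c a s)) (n := rot (m s) e (n s))
        (fun a => (ec a s hs).symm) hr hn,
      PZ.rot_iff (h.norm s hs) h.he (h.ne s hs)]
  have far : ∀ s ≠ 0, ∀ v, PZ (h0 s) (fun a => h1 a s) (fun a => c a s) (n s) v →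
      ‖v‖ ≤ M * N s := by
    intro s hs v hz
    rcases hz with ⟨h2, -, -⟩ | ⟨a, h2, -, -, -⟩
    · exact b0 s hs _ (norm_nonneg _) h2
    · have h3 : ‖v‖ ≤ ‖v - c a s‖ + ‖c a s‖ := by
        calc ‖v‖ = ‖(v - c a s) + c a s‖ := by rw [sub_add_cancel]
          _ ≤ _ := norm_add_le _ _
      exact h3.trans (b1 a s hs _ (norm_nonneg _) h2)
  have hF00 : F 0 = 0 := (hF0 0).mpr rfl
  have hG00 : G 0 = 0 := (hG0 0).mpr rfl
  refine VEq.of_rot' h hM k hk0 hF00 hG00 ?_ ?_ ?_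
  · intro s hs v _
    rw [hF s hs v, key s hs v]
  · intro s v h2
    by_cases hs : s = 0
    · subst hs
      rw [(hF0 v).mp h2, norm_zero, h.gauge.zero, mul_zero]
    · exact far s hs v ((hF s hs v).mp h2)
  · intro s v h2
    by_cases hs : s = 0
    · subst hs
      rw [hk0] at h2
      rw [(hG0 v).mp h2, norm_zero, h.gauge.zero, mul_zero]
    · have hm : ‖m s‖ = 1 := h.norm s hs
      have hme' : 1 + ⟪e, m s⟫ ≠ 0 := by rw [real_inner_comm]; exact h.ne s hs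
      have h3 : rot (m s) e (rot e (m s) v) = v := rot_inv h.he hm hme' v
      have h4 := (key s hs (rot e (m s) v)).mp (by rw [h3]; exact h2)
      have h5 := far s hs _ h4
      rwa [norm_rot h.he hm hme'] at h5

end

/-- The zero set of a function given by its real part, a maximum of heights, and by the values of
its imaginary part where a height is active. -/
theorem plate_zero_iff {α : Type*} {F : ℂ} {rho be : α → ℝ} (hre1 : ∃ a, rho a = F.re)
    (hre2 : ∀ a, rho a ≤ F.re) (him : F.re = 0 → ∀ a, rho a = F.re → F.im = be a) :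
    F = 0 ↔ ∃ a, rho a = 0 ∧ (∀ b, rho b ≤ 0) ∧ be a = 0 := by
  constructor
  · intro h0
    have h1 : F.re = 0 := congrArg Complex.re h0
    have h2 : F.im = 0 := congrArg Complex.im h0
    obtain ⟨a, ha⟩ := hre1
    exact ⟨a, ha.trans h1, fun b => h1 ▸ hre2 b, by rw [← him h1 a ha]; exact h2⟩
  · rintro ⟨a, ha, hb, hbe⟩
    have h1 : F.re = 0 := by
      apply le_antisymm
      · obtain ⟨b, hb'⟩ := hre1
        rw [← hb']; exact hb b
      · rw [← ha]; exact hre2 a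
    exact Complex.ext h1 ((him h1 a (ha.trans h1.symm)).trans hbe)

/-! ### The instance -/

section start

open B4
open Vale.Agent.P268.H288 (mx)

/-- A continuous map which is homogeneous of degree one is bounded by a multiple of the norm. -/
theorem exists_norm_bound {E V : Type*} [NormedAddCommGroup E] [NormedSpace ℝ E] [ProperSpace E]
    [NormedAddCommGroup V] [NormedSpace ℝ V] {f : E → V} (hf : Continuous f)
    (hh : ∀ r : ℝ, 0 ≤ r → ∀ u, f (r • u) = r • f u) : ∃ C, 0 ≤ C ∧ ∀ u, ‖f u‖ ≤ C * ‖u‖ := by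
  obtain ⟨C, hC⟩ := (isCompact_sphere (0 : E) 1).exists_bound_of_continuousOn hf.continuousOn
  refine ⟨max C 0, le_max_right _ _, fun u => ?_⟩
  by_cases hu : u = 0
  · subst hu
    have := hh 0 le_rfl 0
    rw [zero_smul, zero_smul] at this
    rw [this]; simp
  · have hn : 0 < ‖u‖ := norm_pos_iff.mpr hu
    have h1 := hC (‖u‖⁻¹ • u) (by
      rw [mem_sphere_zero_iff_norm, norm_smul, norm_inv, norm_norm, inv_mul_cancel₀ hn.ne'])
    rw [hh _ (inv_nonneg.mpr hn.le), norm_smul, norm_inv, norm_norm] at h1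
    calc ‖f u‖ = ‖u‖⁻¹ * ‖f u‖ * ‖u‖ := by field_simp
      _ ≤ C * ‖u‖ := by gcongr
      _ ≤ max C 0 * ‖u‖ := by gcongr; exact le_max_left _ _

variable {n : ℕ} {σ : Type} [Fintype σ] {Z : Type*} [Zero Z] {Z' : Type*} [Zero Z']

/-- **Transport of the K-form to START.** -/
theorem veq_start {δ d d0 ε ε1 M : ℝ} {nu : EuclideanSpace ℝ (Fin (n + 1)) →
      EuclideanSpace ℝ (Fin (n + 1))} (hn : NField δ nu)
    {c : σ → EuclideanSpace ℝ (Fin (n + 1)) → EuclideanSpace ℝ (Fin (n + 1))}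
    (hc : ∀ a, Continuous (c a)) (hch : ∀ a, ∀ r : ℝ, 0 ≤ r → ∀ u, c a (r • u) = r • c a u)
    {F : EuclideanSpace ℝ (Fin (n + 1)) × EuclideanSpace ℝ (Fin (n + 1)) → Z}
    {G : (ℝ × (Fin n → ℝ)) × EuclideanSpace ℝ (Fin (n + 1)) → Z'}
    (hF0 : ∀ v, F (0, v) = 0 ↔ v = 0) (hG0 : ∀ v, G (0, v) = 0 ↔ v = 0)
    (hF : ∀ u ≠ 0, ∀ v, F (u, v) = 0 ↔
      PZ (fun t => min (ε * ‖u‖) (M * (d0 * osc u.ofLp - mx u.ofLp)) - t / 2)
        (fun _ t => ε1 * ‖u‖ - t / 2) (fun a => c a u) (nu u) v)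
    (hG : ∀ s ≠ 0, ∀ v, G (s, v) = 0 ↔
      PZ (fun t => min (2 * ε * ‖(Theta n d).symm s‖ - t)
          (2 * M * (-(d - d0) * osc (qq s.2) - s.1) - t))
        (fun _ t => 2 * ε1 * ‖(Theta n d).symm s‖ - t)
        (fun a => rc nu (c a) ((Theta n d).symm s)) (rn nu ((Theta n d).symm s)) v) :
    VEq F G := by
  choose C hC0 hC using fun a => exists_norm_bound (hc a) (hch a)
  set B : ℝ := 2 * |ε| + 2 * |ε1| + ∑ a, C a + 1 with hB
  have hsum : 0 ≤ ∑ a, C a := Finset.sum_nonneg fun a _ => hC0 a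
  have hB0 : 0 < B := by positivity
  have hN : Gauge fun u : EuclideanSpace ℝ (Fin (n + 1)) => ‖u‖ := Gauge.norm
  refine veq_PZ (σ := σ) (rotField_abs hN hn.cont hn.ne) hB0 (Theta n d) (Theta_zero d) hF0 hG0
    (h0 := fun u t => min (ε * ‖u‖) (M * (d0 * osc u.ofLp - mx u.ofLp)) - t / 2)
    (h1 := fun _ u t => ε1 * ‖u‖ - t / 2) (c := c) (n := nu)
    (h0' := fun s t => min (2 * ε * ‖(Theta n d).symm s‖ - t)
          (2 * M * (-(d - d0) * osc (qq s.2) - s.1) - t))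
    (h1' := fun _ s t => 2 * ε1 * ‖(Theta n d).symm s‖ - t)
    (c' := fun a s => rc nu (c a) ((Theta n d).symm s))
    (n' := fun s => rn nu ((Theta n d).symm s)) hF hG ?_ ?_ ?_ ?_ ?_ ?_
  · intro u _ t _
    have hfr := Theta_front d d0 (Theta n d u)
    rw [(Theta n d).symm_apply_apply] at hfr
    have e : min (2 * ε * ‖(Theta n d).symm (Theta n d u)‖ - t)
        (2 * M * (-(d - d0) * osc (qq (Theta n d u).2) - (Theta n d u).1) - t) =
        2 * (min (ε * ‖u‖) (M * (d0 * osc u.ofLp - mx u.ofLp)) - t / 2) := by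
      rw [(Theta n d).symm_apply_apply, hfr, ← min_sub_sub_right (ε * ‖u‖), mul_min_of_nonneg _ _
        (by norm_num : (0 : ℝ) ≤ 2)]
      congr 1 <;> ring
    show SameSign _ (min (2 * ε * ‖(Theta n d).symm (Theta n d u)‖ - t)
        (2 * M * (-(d - d0) * osc (qq (Theta n d u).2) - (Theta n d u).1) - t))
    rw [e]
    exact (SameSign.mul_left two_pos).symm
  · intro a u _ t _
    have e : 2 * ε1 * ‖(Theta n d).symm (Theta n d u)‖ - t = 2 * (ε1 * ‖u‖ - t / 2) := by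
      rw [(Theta n d).symm_apply_apply]; ring
    show SameSign _ (2 * ε1 * ‖(Theta n d).symm (Theta n d u)‖ - t)
    rw [e]
    exact (SameSign.mul_left two_pos).symm
  · intro a u _
    show rc nu (c a) ((Theta n d).symm (Theta n d u)) = _
    rw [(Theta n d).symm_apply_apply]; rfl
  · intro u hu
    refine ⟨‖nu u‖⁻¹, inv_ne_zero (norm_ne_zero_iff.mpr (hn.ne u hu)), ?_⟩
    show rn nu ((Theta n d).symm (Theta n d u)) = _
    rw [(Theta n d).symm_apply_apply]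
    unfold rn
    rw [rot_smul]
  · intro u _ t ht h0
    have h1 : t / 2 ≤ ε * ‖u‖ := by
      have : t / 2 = min (ε * ‖u‖) (M * (d0 * osc u.ofLp - mx u.ofLp)) := by
        have h0' : min (ε * ‖u‖) (M * (d0 * osc u.ofLp - mx u.ofLp)) - t / 2 = 0 := h0
        linarith
      rw [this]; exact min_le_left _ _
    have h2 : ε * ‖u‖ ≤ |ε| * ‖u‖ := mul_le_mul_of_nonneg_right (le_abs_self _) (norm_nonneg _)
    have h3 : 2 * |ε| * ‖u‖ ≤ B * ‖u‖ := by
      refine mul_le_mul_of_nonneg_right ?_ (norm_nonneg _)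
      rw [hB]
      have := abs_nonneg ε1
      linarith
    show t ≤ B * ‖u‖
    linarith
  · intro a u _ t ht h0
    have h0' : ε1 * ‖u‖ - t / 2 = 0 := h0
    have h2 : ε1 * ‖u‖ ≤ |ε1| * ‖u‖ := mul_le_mul_of_nonneg_right (le_abs_self _) (norm_nonneg _)
    have h3 := hC a u
    have h4 : C a ≤ ∑ a, C a := Finset.single_le_sum (fun a _ => hC0 a) (Finset.mem_univ a)
    have h5 : (2 * |ε1| + C a) * ‖u‖ ≤ B * ‖u‖ := by
      refine mul_le_mul_of_nonneg_right ?_ (norm_nonneg _)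
      rw [hB]
      have := abs_nonneg ε
      linarith
    show t + ‖c a u‖ ≤ B * ‖u‖
    linarith

end start

end Vale.Agent.P268.T
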