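import Vale.Agent.P268.T.H903.Trans

/-!
# P268, topological half: transport of the K-form, form of the zero sets without heights

* `KZ r₀ A A' r₁ c n v`: the zero condition with slab `‖v‖ ≤ r₀` over `A'` (open part `A`), sheets
  `‖v - c a‖ ≤ r₁`, normal `n`.
* `PZ_iff_KZ`: the same as `PZ` for heights `min (r₀ - t) g`, `r₁ - t`.
* `veq_kz`: transport along `Θ` and the rotation field.
-/

set_option linter.unusedSectionVars false

namespace Vale.Agent.P268.T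

open Set Filter Topology
open scoped RealInnerProductSpace

section

variable {V : Type} [NormedAddCommGroup V] [InnerProductSpace ℝ V] {σ : Type*}

/-- The zero condition of a slab of radius `r₀` over `A'` (`A` the open part) and sheets of radius
`r₁`. -/
def KZ (r₀ : ℝ) (A A' : Prop) (r₁ : ℝ) (c : σ → V) (n v : V) : Prop :=
  (¬(‖v‖ < r₀ ∧ A)) ∧ (∀ a, ¬‖v - c a‖ < r₁) ∧
    ((‖v‖ ≤ r₀ ∧ A' ∧ ⟪v, n⟫ = 0) ∨ ∃ a, ‖v - c a‖ ≤ r₁ ∧ ⟪v - c a, n⟫ = 0)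

theorem PZ_iff_KZ {r₀ g r₁ : ℝ} {c : σ → V} {n v : V} :
    PZ (fun t => min (r₀ - t) g) (fun _ t => r₁ - t) c n v ↔ KZ r₀ (0 < g) (0 ≤ g) r₁ c n v := by
  have e1 : min (r₀ - ‖v‖) g ≤ 0 ↔ ¬(‖v‖ < r₀ ∧ 0 < g) := by
    rw [← not_lt, lt_min_iff, sub_pos]
  have e2 : 0 ≤ min (r₀ - ‖v‖) g ↔ ‖v‖ ≤ r₀ ∧ 0 ≤ g := by
    rw [le_min_iff, sub_nonneg]
  have e3 : ∀ a, r₁ - ‖v - c a‖ ≤ 0 ↔ ¬‖v - c a‖ < r₁ := fun a => by rw [sub_nonpos, not_lt]
  have e4 : ∀ a, 0 ≤ r₁ - ‖v - c a‖ ↔ ‖v - c a‖ ≤ r₁ := fun a => sub_nonneg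
  unfold PZ KZ
  simp only [le_antisymm_iff (b := (0 : ℝ)), e1, e2, e3, e4]
  constructor
  · rintro (⟨⟨h1, h2⟩, h3, h4⟩ | ⟨a, ⟨-, h2⟩, h3, h4, h5⟩)
    · exact ⟨h1, h3, Or.inl ⟨h2.1, h2.2, h4⟩⟩
    · exact ⟨h3, h4, Or.inr ⟨a, h2, h5⟩⟩
  · rintro ⟨h1, h2, ⟨h3, h4, h5⟩ | ⟨a, h3, h4⟩⟩
    · exact Or.inl ⟨⟨h1, h3, h4⟩, h2, h5⟩
    · exact Or.inr ⟨a, ⟨h2 a, h3⟩, h1, h2, h4⟩

end

section start

open B4
open Vale.Agent.P268.H288 (mx)

variable {n : ℕ} {σ : Type} [Fintype σ] {Z : Type*} [Zero Z] {Z' : Type*} [Zero Z']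

/-- **Transport of the K-form**, M-free form. -/
theorem veq_kz {δ dc df ρ ε₁ : ℝ} {nu : EuclideanSpace ℝ (Fin (n + 1)) →
      EuclideanSpace ℝ (Fin (n + 1))} (hn : NField δ nu) (hdf : 0 ≤ df) (hfδ : 2 * df ≤ δ)
    {c : σ → EuclideanSpace ℝ (Fin (n + 1)) → EuclideanSpace ℝ (Fin (n + 1))}
    (hc : ∀ a, Continuous (c a)) (hch : ∀ a, ∀ r : ℝ, 0 ≤ r → ∀ u, c a (r • u) = r • c a u)
    {F : EuclideanSpace ℝ (Fin (n + 1)) × EuclideanSpace ℝ (Fin (n + 1)) → Z}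
    {G : (ℝ × (Fin n → ℝ)) × EuclideanSpace ℝ (Fin (n + 1)) → Z'}
    (hF0 : ∀ v, F (0, v) = 0 ↔ v = 0) (hG0 : ∀ v, G (0, v) = 0 ↔ v = 0)
    (hF : ∀ u ≠ 0, ∀ v, F (u, v) = 0 ↔
      KZ (ρ * ‖u‖) (mx u.ofLp < df * osc u.ofLp) (mx u.ofLp ≤ df * osc u.ofLp) (ε₁ * ‖u‖)
        (fun a => c a u) (nu u) v)
    (hG : ∀ s ≠ 0, ∀ v, G (s, v) = 0 ↔
      ((¬(‖v‖ < ρ * ‖(Theta n dc).symm s‖ ∧ s.1 < -(dc - df) * osc (qq s.2))) ∧
        (∀ a, ¬‖v - rc nu (c a) ((Theta n dc).symm s)‖ < ε₁ * ‖(Theta n dc).symm s‖) ∧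
        ((‖v‖ ≤ ρ * ‖(Theta n dc).symm s‖ ∧ s.1 ≤ -(dc - df) * osc (qq s.2) ∧
            ⟪v, eDiag (Fin (n + 1))⟫ = 0) ∨
          ∃ a, ‖v - rc nu (c a) ((Theta n dc).symm s)‖ ≤ ε₁ * ‖(Theta n dc).symm s‖ ∧
            ⟪v - rc nu (c a) ((Theta n dc).symm s), rn nu ((Theta n dc).symm s)⟫ = 0))) :
    VEq F G := by
  choose C hC0 hC using fun a => exists_norm_bound (hc a) (hch a)
  set B : ℝ := |ρ| + |ε₁| + ∑ a, C a + 1 with hB
  have hsum : 0 ≤ ∑ a, C a := Finset.sum_nonneg fun a _ => hC0 a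
  have hB0 : 0 < B := by positivity
  have hN : Gauge fun u : EuclideanSpace ℝ (Fin (n + 1)) => ‖u‖ := Gauge.norm
  refine veq_PZ (σ := σ) (rotField_abs hN hn.cont hn.ne) hB0 (Theta n dc) (Theta_zero dc) hF0 hG0
    (h0 := fun u t => min (ρ * ‖u‖ - t) (df * osc u.ofLp - mx u.ofLp))
    (h1 := fun _ u t => ε₁ * ‖u‖ - t) (c := c) (n := nu)
    (h0' := fun s t => min (ρ * ‖(Theta n dc).symm s‖ - t) (-(dc - df) * osc (qq s.2) - s.1))
    (h1' := fun _ s t => ε₁ * ‖(Theta n dc).symm s‖ - t)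
    (c' := fun a s => rc nu (c a) ((Theta n dc).symm s))
    (n' := fun s => rn nu ((Theta n dc).symm s)) ?_ ?_ ?_ ?_ ?_ ?_ ?_ ?_
  · intro u hu v
    rw [hF u hu v, PZ_iff_KZ, sub_pos, sub_nonneg]
  · intro s hs v
    rw [hG s hs v, PZ_iff_KZ, sub_pos, sub_nonneg]
    have hs' : (Theta n dc).symm s ≠ 0 := by
      intro h0
      apply hs
      rw [← (Theta n dc).apply_symm_apply s, h0, Theta_zero]
    have hnu : s.1 ≤ -(dc - df) * osc (qq s.2) →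
        rn nu ((Theta n dc).symm s) = eDiag (Fin (n + 1)) := by
      intro h1
      apply rn_flat hn hs'
      have h2 := Theta_front dc df s
      have h3 := osc_le_norm ((Theta n dc).symm s)
      have h4 := mul_le_mul_of_nonneg_left h3 hdf
      have h5 := mul_le_mul_of_nonneg_right hfδ (norm_nonneg ((Theta n dc).symm s))
      linarith
    unfold KZ
    refine and_congr Iff.rfl (and_congr Iff.rfl (or_congr ?_ Iff.rfl))
    constructor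
    · rintro ⟨h1, h2, h3⟩
      exact ⟨h1, h2, by rw [hnu h2]; exact h3⟩
    · rintro ⟨h1, h2, h3⟩
      exact ⟨h1, h2, by rw [hnu h2] at h3; exact h3⟩
  · intro u _ t _
    have hfr := Theta_front dc df (Theta n dc u)
    rw [(Theta n dc).symm_apply_apply] at hfr
    have e : -(dc - df) * osc (qq (Theta n dc u).2) - (Theta n dc u).1 =
        df * osc u.ofLp - mx u.ofLp := by rw [hfr]; ring
    show SameSign (min (ρ * ‖u‖ - t) (df * osc u.ofLp - mx u.ofLp))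
      (min (ρ * ‖(Theta n dc).symm (Theta n dc u)‖ - t)
        (-(dc - df) * osc (qq (Theta n dc u).2) - (Theta n dc u).1))
    rw [e, (Theta n dc).symm_apply_apply]
    exact SameSign.refl _
  · intro a u _ t _
    show SameSign (ε₁ * ‖u‖ - t) (ε₁ * ‖(Theta n dc).symm (Theta n dc u)‖ - t)
    rw [(Theta n dc).symm_apply_apply]
    exact SameSign.refl _
  · intro a u _
    show rc nu (c a) ((Theta n dc).symm (Theta n dc u)) = _
    rw [(Theta n dc).symm_apply_apply]; rfl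
  · intro u hu
    refine ⟨‖nu u‖⁻¹, inv_ne_zero (norm_ne_zero_iff.mpr (hn.ne u hu)), ?_⟩
    show rn nu ((Theta n dc).symm (Theta n dc u)) = _
    rw [(Theta n dc).symm_apply_apply]
    unfold rn
    rw [rot_smul]
  · intro u _ t ht h0
    have h1 : 0 ≤ ρ * ‖u‖ - t := by
      have h0' : min (ρ * ‖u‖ - t) (df * osc u.ofLp - mx u.ofLp) = 0 := h0
      rw [← h0']; exact min_le_left _ _
    have h2 : ρ * ‖u‖ ≤ |ρ| * ‖u‖ := mul_le_mul_of_nonneg_right (le_abs_self _) (norm_nonneg _)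
    have h3 : |ρ| * ‖u‖ ≤ B * ‖u‖ := by
      refine mul_le_mul_of_nonneg_right ?_ (norm_nonneg _)
      rw [hB]
      have := abs_nonneg ε₁
      linarith
    show t ≤ B * ‖u‖
    linarith
  · intro a u _ t ht h0
    have h0' : ε₁ * ‖u‖ - t = 0 := h0
    have h2 : ε₁ * ‖u‖ ≤ |ε₁| * ‖u‖ := mul_le_mul_of_nonneg_right (le_abs_self _) (norm_nonneg _)
    have h3 := hC a u
    have h4 : C a ≤ ∑ a, C a := Finset.single_le_sum (fun a _ => hC0 a) (Finset.mem_univ a)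
    have h5 : (|ε₁| + C a) * ‖u‖ ≤ B * ‖u‖ := by
      refine mul_le_mul_of_nonneg_right ?_ (norm_nonneg _)
      rw [hB]
      have := abs_nonneg ρ
      linarith
    show t + ‖c a u‖ ≤ B * ‖u‖
    linarith

end start

end Vale.Agent.P268.T
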