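import Vale.Agent.P268.T.H903.RotV
import Vale.Agent.P268.T.PlatesD

/-!
# P268, topological half: zero sets of sheet functions, and their transport by fibre rotations

* `SheetData.Base.fn_eq_zero_iff`: the zero set of a sheet function.
* `KZero`: the zero set of the K-form, over a base `S`: slab `min (ρ₀ - ‖v‖) f`, sheets
  `ρ₁ - ‖v - c a‖`, normal `n`.
* `veq_sheets`: a function with zero set `KZero` is `VEq` to the sheet function over `S'` with the
  rotated data.
-/

set_option linter.unusedSectionVars false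

namespace Vale.Agent.P268.T

open Set Filter Topology
open scoped RealInnerProductSpace

namespace SheetData

variable {T E V A : Type*} [TopologicalSpace T] [NormedAddCommGroup E] [NormedSpace ℝ E]
  [NormedAddCommGroup V] [InnerProductSpace ℝ V] [Fintype A] [Nonempty A]
  {P : SheetData T E V A} {s : Set T} {η : ℝ} {N : E → ℝ}

theorem BaseL.fn_eq_zero_iff (h : P.BaseL s η N) {τ : T} (hτ : τ ∈ s) {x : E} (hx : N x ≠ 0) :
    P.fn η N τ x = 0 ↔
      ∃ a, P.rho τ a x = 0 ∧ (∀ b, P.rho τ b x ≤ 0) ∧ P.be τ a x = 0 := by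
  have hn : 0 < N x := lt_of_le_of_ne (h.nN x) (Ne.symm hx)
  have hη := h.hη
  have him : ∀ a, P.rho τ a x = 0 → gim η N P.rho P.be τ x = P.be τ a x := fun a ha =>
    h.glueL.im_eq hτ hx (by rw [ha]; nlinarith [mul_pos hη hn])
  constructor
  · intro h0
    have h1 : gre P.rho τ x = 0 := congrArg Complex.re h0
    have h2 : gim η N P.rho P.be τ x = 0 := congrArg Complex.im h0
    obtain ⟨a, ha⟩ := exists_gre P.rho τ x
    rw [h1] at ha
    exact ⟨a, ha.symm, fun b => h1 ▸ gre_ge τ b x, by rw [← him a ha.symm]; exact h2⟩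
  · rintro ⟨a, ha, hb, hbe⟩
    have h1 : gre P.rho τ x = 0 := by
      apply le_antisymm
      · obtain ⟨b, hb'⟩ := exists_gre P.rho τ x
        rw [hb']; exact hb b
      · rw [← ha]; exact gre_ge τ a x
    exact Complex.ext h1 ((him a ha).trans hbe)

theorem Base.fn_eq_zero_iff (h : P.Base s η N) {τ : T} (hτ : τ ∈ s) {x : E} (hx : x ≠ 0) :
    P.fn η N τ x = 0 ↔
      ∃ a, P.rho τ a x = 0 ∧ (∀ b, P.rho τ b x ≤ 0) ∧ P.be τ a x = 0 := by
  by_cases hN : N x = 0
  · constructor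
    · intro h0
      obtain ⟨a, ha⟩ := exists_gre P.rho τ x
      have h1 : gre P.rho τ x = 0 := congrArg Complex.re h0
      have := h.neg τ hτ a x hx hN
      rw [← ha, h1] at this
      exact absurd this (lt_irrefl _)
    · rintro ⟨a, ha, -, -⟩
      have := h.neg τ hτ a x hx hN
      rw [ha] at this
      exact absurd this (lt_irrefl _)
  · exact h.toBaseL.fn_eq_zero_iff hτ hN

theorem Base.fn_zero (h : P.Base s η N) {τ : T} (hτ : τ ∈ s) : P.fn η N τ 0 = 0 := by
  have h1 := h.glue.hom1 hτ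
  have h2 := h1 0 le_rfl 0
  have e : P.fn η N τ ((0 : ℝ) • (0 : E)) = P.fn η N τ 0 := by rw [smul_zero]
  rw [← e]
  refine Eq.trans ?_ (zero_smul ℝ (P.fn η N τ 0))
  exact h2

end SheetData

section

variable {S : Type} [NormedAddCommGroup S] [NormedSpace ℝ S]
  {S' : Type} [NormedAddCommGroup S'] [NormedSpace ℝ S']
  {V : Type} [NormedAddCommGroup V] [InnerProductSpace ℝ V] {σ : Type*}

/-- The zero set of the K-form: slab with real part `min (ρ₀ - ‖v‖) f`, sheets with real parts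
`ρ₁ - ‖v - c a‖`, imaginary parts `⟪v, n⟫`, `⟪v - c a, n⟫`. -/
def KZero (ρ₀ f ρ₁ : S → ℝ) (c : σ → S → V) (n : S → V) (s : S) (v : V) : Prop :=
  (min (ρ₀ s - ‖v‖) (f s) = 0 ∧ (∀ a, ρ₁ s - ‖v - c a s‖ ≤ 0) ∧ ⟪v, n s⟫ = 0) ∨
  ∃ a, ρ₁ s - ‖v - c a s‖ = 0 ∧ min (ρ₀ s - ‖v‖) (f s) ≤ 0 ∧
    (∀ b, ρ₁ s - ‖v - c b s‖ ≤ 0) ∧ ⟪v - c a s, n s⟫ = 0

/-- Two real numbers of the same sign. -/
def SameSign (x y : ℝ) : Prop := (x = 0 ↔ y = 0) ∧ (0 < x ↔ 0 < y)

theorem SameSign.refl (x : ℝ) : SameSign x x := ⟨Iff.rfl, Iff.rfl⟩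

theorem SameSign.symm {x y : ℝ} (h : SameSign x y) : SameSign y x := ⟨h.1.symm, h.2.symm⟩

theorem SameSign.mul_left {x k : ℝ} (hk : 0 < k) : SameSign (k * x) x :=
  ⟨by simp [hk.ne'], mul_pos_iff_of_pos_left hk⟩

theorem SameSign.le {x y : ℝ} (h : SameSign x y) : x ≤ 0 ↔ y ≤ 0 := by
  rw [← not_lt, ← not_lt, h.2]

theorem SameSign.min {t x y : ℝ} (h : SameSign x y) : SameSign (min t x) (min t y) := by
  have h3 : x < 0 ↔ y < 0 := by
    constructor
    · intro hx
      exact lt_of_le_of_ne (h.le.mp hx.le) fun h0 => hx.ne (h.1.mpr h0)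
    · intro hx
      exact lt_of_le_of_ne (h.le.mpr hx.le) fun h0 => hx.ne (h.1.mp h0)
  have h4 : 0 < Min.min t x ↔ 0 < Min.min t y := by rw [lt_min_iff, lt_min_iff, h.2]
  have h5 : Min.min t x < 0 ↔ Min.min t y < 0 := by rw [min_lt_iff, min_lt_iff, h3]
  refine ⟨?_, h4⟩
  constructor
  · intro h0
    exact le_antisymm (not_lt.mp fun h6 => by
      have := h4.mpr h6; rw [h0] at this; exact lt_irrefl _ this)
      (not_lt.mp fun h6 => by have := h5.mpr h6; rw [h0] at this; exact lt_irrefl _ this)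
  · intro h0
    exact le_antisymm (not_lt.mp fun h6 => by
      have := h4.mp h6; rw [h0] at this; exact lt_irrefl _ this)
      (not_lt.mp fun h6 => by have := h5.mp h6; rw [h0] at this; exact lt_irrefl _ this)

variable [Fintype σ]

/-- **Transport of a K-form to a sheet function** along a homeomorphism `k` of the base and the
fibrewise rotation carrying `m s` to `e`. -/
theorem veq_sheets {N : S → ℝ} {e : V} {m : S → V} {M : ℝ} (h : RotField N e m) (hM : 0 < M)
    (k : S ≃ₜ S') (hk0 : k 0 = 0) {F : S × V → ℂ} {ρ₀ f ρ₁ : S → ℝ} {c : σ → S → V} {n : S → V}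
    (hF0 : ∀ v, F (0, v) = 0 ↔ v = 0)
    (hF : ∀ s ≠ 0, ∀ v, F (s, v) = 0 ↔ KZero ρ₀ f ρ₁ c n s v)
    (hρ₀ : ∀ s ≠ 0, ρ₀ s ≤ M * N s) (hρ₁ : ∀ s ≠ 0, ∀ a, ‖c a s‖ + ρ₁ s ≤ M * N s)
    (hn : ∀ s ≠ 0, 0 ≤ f s → n s = m s)
    {P : SheetData Unit (S' × V) V (Option σ)} {η : ℝ} {N' : S' × V → ℝ}
    (hP : P.Base univ η N') (hN' : ∀ v, N' (0, v) = 0)
    (hw0 : ∀ s ≠ 0, ∀ v, P.w () none (k s, v) = v)
    (hwa : ∀ s ≠ 0, ∀ v a, P.w () (some a) (k s, v) = v - rot (m s) e (c a s))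
    (hν0 : ∀ s ≠ 0, ∀ v, P.ν () none (k s, v) = e)
    (hνa : ∀ s ≠ 0, ∀ v a, ∃ r : ℝ, r ≠ 0 ∧
      P.ν () (some a) (k s, v) = r • rot (m s) e (n s))
    (hr0 : ∀ s ≠ 0, ∀ v, P.r () none (k s, v) = ρ₀ s)
    (hra : ∀ s ≠ 0, ∀ v a, P.r () (some a) (k s, v) = ρ₁ s)
    (hσ0 : ∀ s ≠ 0, ∀ v, SameSign (P.σ () none (k s, v)) (f s))
    (hσa : ∀ s ≠ 0, ∀ v a, P.σ () (some a) (k s, v) ≤ 0 → ∀ w b, ‖w - c b s‖ ≤ ρ₁ s →
      0 < min (ρ₀ s - ‖w‖) (f s)) : VEq F (P.fn η N' ()) := by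
  have hG0 : P.fn η N' () 0 = 0 := hP.fn_zero (mem_univ _)
  have key : ∀ s ≠ 0, ∀ v, P.fn η N' () (k s, rot (m s) e v) = 0 ↔
      KZero ρ₀ f ρ₁ c n s v := by
    intro s hs v
    have hm : ‖m s‖ = 1 := h.norm s hs
    have hme := h.ne s hs
    have hks : k s ≠ 0 := fun h0 => hs (k.injective (h0.trans hk0.symm))
    have hx : (k s, rot (m s) e v) ≠ 0 := fun h0 => hks (congrArg Prod.fst h0)
    rw [hP.fn_eq_zero_iff (mem_univ _) hx]
    have hrw : ∀ w, ‖rot (m s) e w‖ = ‖w‖ := norm_rot hm h.he hme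
    have e0 : P.rho () none (k s, rot (m s) e v) =
        min (ρ₀ s - ‖v‖) (P.σ () none (k s, rot (m s) e v)) := by
      unfold SheetData.rho SheetData.tp
      rw [hw0 s hs, hr0 s hs, hrw]
    have ss : SameSign (P.rho () none (k s, rot (m s) e v)) (min (ρ₀ s - ‖v‖) (f s)) := by
      rw [e0]; exact (hσ0 s hs _).min
    have e1 : ∀ a, P.w () (some a) (k s, rot (m s) e v) = rot (m s) e (v - c a s) := by
      intro a
      rw [hwa s hs, rot_sub]
    have e2 : ∀ a, P.rho () (some a) (k s, rot (m s) e v) =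
        min (ρ₁ s - ‖v - c a s‖) (P.σ () (some a) (k s, rot (m s) e v)) := by
      intro a
      unfold SheetData.rho SheetData.tp
      rw [e1, hra s hs, hrw]
    have b0 : 0 ≤ f s → (P.be () none (k s, rot (m s) e v) = 0 ↔ ⟪v, n s⟫ = 0) := by
      intro hf
      unfold SheetData.be
      rw [hw0 s hs, hν0 s hs, hn s hs hf]
      have : ⟪rot (m s) e v, rot (m s) e (m s)⟫ = ⟪v, m s⟫ := inner_rot hm h.he hme _ _
      rw [rot_left hm hme] at this
      rw [this]
    have b1 : ∀ a, (P.be () (some a) (k s, rot (m s) e v) = 0 ↔ ⟪v - c a s, n s⟫ = 0) := by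
      intro a
      obtain ⟨r, hr, hν⟩ := hνa s hs (rot (m s) e v) a
      unfold SheetData.be
      rw [e1, hν, inner_smul_right, inner_rot hm h.he hme]
      simp [hr]
    -- hidden part of the sheets
    have hid : ∀ a, P.σ () (some a) (k s, rot (m s) e v) ≤ 0 → ‖v - c a s‖ ≤ ρ₁ s →
        0 < min (ρ₀ s - ‖v‖) (f s) := fun a ha hb => hσa s hs _ a ha v a hb
    constructor
    · rintro ⟨o, ho, hall, hbe⟩
      have hnone : min (ρ₀ s - ‖v‖) (f s) ≤ 0 := ss.le.mp (hall none)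
      have hsome : ∀ b, ρ₁ s - ‖v - c b s‖ ≤ 0 := by
        intro b
        by_contra hc
        push Not at hc
        have h1 := hall (some b)
        rw [e2] at h1
        have h2 : P.σ () (some b) (k s, rot (m s) e v) ≤ 0 := by
          rcases min_le_iff.mp h1 with h3 | h3
          · exact absurd h3 (not_le.mpr hc)
          · exact h3
        exact absurd (hid b h2 (by linarith)) (not_lt.mpr hnone)
      cases o with
      | none =>
        have h1 : min (ρ₀ s - ‖v‖) (f s) = 0 := ss.1.mp ho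
        have hf : 0 ≤ f s := h1 ▸ min_le_right _ _
        exact Or.inl ⟨h1, hsome, (b0 hf).mp hbe⟩
      | some a =>
        rw [e2] at ho
        refine Or.inr ⟨a, ?_, hnone, hsome, (b1 a).mp hbe⟩
        have h1 : 0 ≤ ρ₁ s - ‖v - c a s‖ := ho ▸ min_le_left _ _
        exact le_antisymm (hsome a) h1
    · rintro (⟨h1, h2, h3⟩ | ⟨a, h1, h2, h3, h4⟩)
      · have hf : 0 ≤ f s := h1 ▸ min_le_right _ _
        refine ⟨none, ss.1.mpr h1, ?_, (b0 hf).mpr h3⟩
        intro b
        cases b with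
        | none => exact (ss.1.mpr h1).le
        | some b => rw [e2]; exact (min_le_left _ _).trans (h2 b)
      · refine ⟨some a, ?_, ?_, (b1 a).mpr h4⟩
        · rw [e2, h1]
          apply min_eq_left
          by_contra hc
          push Not at hc
          exact absurd (hid a hc.le (by linarith)) (not_lt.mpr h2)
        · intro b
          cases b with
          | none => exact ss.le.mpr h2
          | some b => rw [e2]; exact (min_le_left _ _).trans (h3 b)
  -- bounds for the zeros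
  have far : ∀ s ≠ 0, ∀ v, KZero ρ₀ f ρ₁ c n s v → ‖v‖ ≤ M * N s := by
    intro s hs v hz
    rcases hz with ⟨h1, -, -⟩ | ⟨a, h1, -, -, -⟩
    · have h2 : 0 ≤ ρ₀ s - ‖v‖ := h1 ▸ min_le_left _ _
      have := hρ₀ s hs
      linarith
    · have h2 : ‖v‖ ≤ ‖v - c a s‖ + ‖c a s‖ := by
        calc ‖v‖ = ‖(v - c a s) + c a s‖ := by rw [sub_add_cancel]
          _ ≤ _ := norm_add_le _ _
      have := hρ₁ s hs a
      linarith
  have hF00 : F 0 = 0 := (hF0 0).mpr rfl
  refine VEq.of_rot' h hM k hk0 hF00 hG0 ?_ ?_ ?_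
  · intro s hs v _
    rw [hF s hs v, key s hs v]
  · intro s v h0
    by_cases hs : s = 0
    · subst hs
      rw [(hF0 v).mp h0, norm_zero, h.gauge.zero, mul_zero]
    · exact far s hs v ((hF s hs v).mp h0)
  · intro s v h0
    by_cases hs : s = 0
    · subst hs
      rw [hk0] at h0
      by_contra hc
      have hv : v ≠ 0 := by
        rintro rfl
        rw [norm_zero, h.gauge.zero, mul_zero] at hc
        exact hc le_rfl
      have hx : ((0 : S'), v) ≠ 0 := fun h1 => hv (congrArg Prod.snd h1)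
      obtain ⟨a, ha, -, -⟩ := (hP.fn_eq_zero_iff (mem_univ ()) hx).mp h0
      have := hP.neg () (mem_univ _) a _ hx (hN' v)
      rw [ha] at this
      exact lt_irrefl _ this
    · have hm : ‖m s‖ = 1 := h.norm s hs
      have hme := h.ne s hs
      have hme' : 1 + ⟪e, m s⟫ ≠ 0 := by rw [real_inner_comm]; exact hme
      have h1 : rot (m s) e (rot e (m s) v) = v := rot_inv h.he hm hme' v
      have h2 := (key s hs (rot e (m s) v)).mp (by rw [h1]; exact h0)
      have h3 := far s hs _ h2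
      rwa [norm_rot h.he hm hme'] at h3

end

end Vale.Agent.P268.T
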