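import Vale.Agent.P268.T.H903.ZipEnd
import Vale.Agent.P268.T.H354.ZFam2

/-!
# P268, topological half: the theorem `zip`, from the regularity of ZIP families
-/

set_option linter.unusedSectionVars false

namespace Vale.Agent.P268.T.Z903

open Set Filter Topology Metric Z293

variable {ι : Type*} [Fintype ι] [DecidableEq ι] {i₀ : ι}
variable {V A : Type*} [NormedAddCommGroup V] [InnerProductSpace ℝ V] [ProperSpace V]
  [DecidableEq A] [Fintype A]
variable {e : V} {ε R M : ℝ} {j k : A} {b ν : A → (ι → ℝ) → V}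

/-- **ZIP**, from the regularity of ZIP families. -/
theorem zip_of_reg
    (hreg : ∀ (s : Set ℝ) (b ν : ℝ → A → (ι → ℝ) → V) (G : ℝ → ℝ × (ι → ℝ) → ℝ),
      ZFam s e ε R M j k b ν G → RFam s ((zpl e ε R M j k b ν G).fn ε (fun x => ‖x.1‖)))
    (h : ZDat i₀ e ε j k b ν) (he : ‖e‖ = 1) (hA : Adm ε R M b) {K' : ℝ} (hK' : 16 ≤ K') :
    VEq (NN e ε R M b ν) (ZN i₀ e ε R M K' j k b ν) := by
  set K : ℝ := max 16 (4 * R / ε) with hK
  have hK16 : 16 ≤ K := le_max_left _ _
  have hKR : 4 * R ≤ ε * K := by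
    have h1 : 4 * R / ε ≤ K := le_max_right _ _
    rw [div_le_iff₀ hA.hε] at h1
    linarith
  have f1 := hreg _ _ _ _ (zfam1 h he hA hK16 hKR)
  have f2 := hreg _ _ _ _ (Z354.zfam2 h he hA hK16 hK')
  exact zip_of (by linarith)
    (f1.veq isPreconnected_Icc (right_mem_Icc.mpr (by norm_num)) (left_mem_Icc.mpr (by norm_num)))
    (f2.veq isPreconnected_Icc (left_mem_Icc.mpr (by norm_num)) (right_mem_Icc.mpr (by norm_num)))

end Vale.Agent.P268.T.Z903
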