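import Vale.Agent.P268.T.H903.ZipEnd1

/-!
# P268, topological half: the theorem `zip` from its two families
-/

set_option linter.unusedSectionVars false

namespace Vale.Agent.P268.T.Z903

open Set Filter Topology Metric Z293

/-- Two families of sheets which agree at two parameters have the same functions there. -/
theorem fn_congr {T T' E V A : Type*} [TopologicalSpace T] [TopologicalSpace T']
    [NormedAddCommGroup E] [NormedSpace ℝ E] [NormedAddCommGroup V] [InnerProductSpace ℝ V]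
    [Fintype A] [Nonempty A] {P : SheetData T E V A} {P' : SheetData T' E V A} {τ : T} {τ' : T'}
    (hw : ∀ a x, P.w τ a x = P'.w τ' a x) (hν : ∀ a x, P.ν τ a x = P'.ν τ' a x)
    (hr : ∀ a x, P.r τ a x = P'.r τ' a x) (hσ : ∀ a x, P.σ τ a x = P'.σ τ' a x) (η : ℝ)
    (N : E → ℝ) : P.fn η N τ = P'.fn η N τ' := by
  have h1 : P.rho τ = P'.rho τ' := by
    funext a x
    unfold SheetData.rho SheetData.tp
    rw [hw, hr, hσ]
  have h2 : P.be τ = P'.be τ' := by
    funext a x
    unfold SheetData.be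
    rw [hw, hν]
  funext x
  unfold SheetData.fn gfn gre gim gwt
  rw [h1, h2]

variable {ι : Type*} [Fintype ι] [DecidableEq ι] {i₀ : ι}
variable {V A : Type*} [NormedAddCommGroup V] [InnerProductSpace ℝ V] [DecidableEq A] [Fintype A]
variable {e : V} {ε R M : ℝ} {j k : A} {b ν : A → (ι → ℝ) → V}

theorem zPhi_eq_of_le {c : ℝ} (hc : c ≤ 1 / 4) (x : ι → ℝ) : zPhi i₀ c x = x := by
  funext l
  by_cases hl : l = i₀
  · subst hl; rw [zPhi_same, zphi_of_le hc]
  · rw [zPhi_ne hl]

theorem zPhi_eq_of_five {x : ι → ℝ} (hx : x ∈ closedBall (0 : ι → ℝ) 1) : zPhi i₀ 5 x = x := by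
  funext l
  by_cases hl : l = i₀
  · subst hl
    rw [zPhi_same, zphi_of_five le_rfl]
    have := norm_le_pi_norm x l
    rw [mem_closedBall_zero_iff] at hx
    exact (le_abs_self _).trans (this.trans hx)
  · rw [zPhi_ne hl]

/-- **ZIP** from its two families. -/
theorem zip_of {K K' : ℝ} (hK : 1 ≤ K)
    (H1 : VEq ((zpl e ε R M j k (fun (c : ℝ) i x => b i (zPhi i₀ c x))
        (fun c i x => ν i (zPhi i₀ c x)) (fun c s => K * (zY i₀ s - c))).fn ε
          (fun x => ‖x.1‖) (5 : ℝ))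
      ((zpl e ε R M j k (fun (c : ℝ) i x => b i (zPhi i₀ c x))
        (fun c i x => ν i (zPhi i₀ c x)) (fun c s => K * (zY i₀ s - c))).fn ε
          (fun x => ‖x.1‖) (0 : ℝ)))
    (H2 : VEq ((zpl e ε R M j k (fun _ : ℝ => b) (fun _ => ν)
        (fun t s => (1 - t) * (K * zY i₀ s) + t * (K' * (s.2 i₀ / ‖s‖)))).fn ε
          (fun x => ‖x.1‖) (0 : ℝ))
      ((zpl e ε R M j k (fun _ : ℝ => b) (fun _ => ν)
        (fun t s => (1 - t) * (K * zY i₀ s) + t * (K' * (s.2 i₀ / ‖s‖)))).fn ε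
          (fun x => ‖x.1‖) (1 : ℝ))) :
    VEq (NN e ε R M b ν) (ZN i₀ e ε R M K' j k b ν) := by
  have e0 : (zpl e ε R M j k (fun (c : ℝ) i x => b i (zPhi i₀ c x))
        (fun c i x => ν i (zPhi i₀ c x)) (fun c s => K * (zY i₀ s - c))).fn ε
          (fun x => ‖x.1‖) (5 : ℝ) = NN e ε R M b ν := by
    refine fn_congr (fun a x => ?_) (fun a x => ?_) (fun a x => ?_) (fun a x => ?_) _ _
    · cases a with
      | none => rfl
      | some i =>
        show x.2 - ‖x.1‖ • zcen j k (fun i x => b i (zPhi i₀ 5 x))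
            (c01 (K * (zY i₀ x.1 - 5) + 1)) i (kap x.1) = x.2 - ‖x.1‖ • b i (kap x.1)
        have h0 : c01 (K * (zY i₀ x.1 - 5) + 1) = 0 := zth_five hK x.1
        rw [h0]
        unfold zcen
        simp only [zPhi_eq_of_five (kap_mem x.1), zero_smul, add_zero]
        split_ifs with h
        · rw [h]
        · rfl
    · cases a with
      | none => rfl
      | some i =>
        show ν i (zPhi i₀ 5 (kap x.1)) = ν i (kap x.1)
        rw [zPhi_eq_of_five (kap_mem x.1)]
    · cases a <;> rfl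
    · cases a <;> rfl
  have e1 : (zpl e ε R M j k (fun (c : ℝ) i x => b i (zPhi i₀ c x))
        (fun c i x => ν i (zPhi i₀ c x)) (fun c s => K * (zY i₀ s - c))).fn ε
          (fun x => ‖x.1‖) (0 : ℝ) =
      (zpl e ε R M j k (fun _ : ℝ => b) (fun _ => ν)
        (fun t s => (1 - t) * (K * zY i₀ s) + t * (K' * (s.2 i₀ / ‖s‖)))).fn ε
          (fun x => ‖x.1‖) (0 : ℝ) := by
    have hz : ∀ x : ι → ℝ, zPhi i₀ 0 x = x := zPhi_eq_of_le (by norm_num)
    refine fn_congr (fun a x => ?_) (fun a x => ?_) (fun a x => ?_) (fun a x => ?_) _ _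
    · cases a with
      | none => rfl
      | some i =>
        show x.2 - ‖x.1‖ • zcen j k (fun i x => b i (zPhi i₀ 0 x))
            (c01 (K * (zY i₀ x.1 - 0) + 1)) i (kap x.1) =
          x.2 - ‖x.1‖ • zcen j k b (c01 ((1 - 0) * (K * zY i₀ x.1) +
            0 * (K' * (x.1.2 i₀ / ‖x.1‖)) + 1)) i (kap x.1)
        simp only [hz, sub_zero, one_mul, zero_mul, add_zero]
    · cases a with
      | none => rfl
      | some i =>
        show ν i (zPhi i₀ 0 (kap x.1)) = ν i (kap x.1)
        rw [hz]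
    · cases a <;> rfl
    · cases a <;> rfl
  have e2 : (zpl e ε R M j k (fun _ : ℝ => b) (fun _ => ν)
        (fun t s => (1 - t) * (K * zY i₀ s) + t * (K' * (s.2 i₀ / ‖s‖)))).fn ε
          (fun x => ‖x.1‖) (1 : ℝ) = ZN i₀ e ε R M K' j k b ν := by
    refine fn_congr (fun a x => ?_) (fun a x => ?_) (fun a x => ?_) (fun a x => ?_) _ _
    · cases a with
      | none => rfl
      | some i =>
        show x.2 - ‖x.1‖ • zcen j k b (c01 ((1 - 1) * (K * zY i₀ x.1) +
            1 * (K' * (x.1.2 i₀ / ‖x.1‖)) + 1)) i (kap x.1) =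
          x.2 - ‖x.1‖ • zcen j k b (c01 (K' * (x.1.2 i₀ / ‖x.1‖) + 1)) i (kap x.1)
        simp only [sub_self, zero_mul, one_mul, zero_add]
    · cases a <;> rfl
    · cases a <;> rfl
    · cases a <;> rfl
  rw [e0] at H1
  rw [← e1, e2] at H2
  exact H1.trans H2

end Vale.Agent.P268.T.Z903
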