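import Vale.Agent.P268.T.H354.ZWin
import Vale.Agent.P268.T.H903.ZipDir

/-!
# P268, topological half: the first family of the ZIP

`zfam1`: the windowed data, with the ramp at `zY = c`, `c ∈ [0, 5]`.
`zfam2`: constant data, from the ramp at `zY = 0` to the straight ramp.
-/

set_option linter.unusedSectionVars false

namespace Vale.Agent.P268.T.Z903

open Set Filter Topology Metric Z293

variable {ι : Type*} [Fintype ι] [DecidableEq ι] {i₀ : ι}
variable {V A : Type*} [NormedAddCommGroup V] [InnerProductSpace ℝ V] [DecidableEq A] [Fintype A]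

/-- Assembly of the crotch condition. -/
theorem mk_cro {T : Type*} [TopologicalSpace T] {s : Set T} {ε R : ℝ} {j k : A}
    {b ν : T → A → (ι → ℝ) → V} {G : T → ℝ × (ι → ℝ) → ℝ} {t : T} {x : ℝ × (ι → ℝ)}
    {d q lam : ℝ} (hlam : 0 < lam) (hq : 0 ≤ q) (hR : R * q < 2 * ε * lam * ‖x‖)
    (hx : x ≠ 0) (hkap : -1 < kap x i₀) (hw : ‖x.2‖ = x.1 → 0 < d)
    (g : ∃ L : ℝ, ∃ U ∈ 𝓝 x, ∀ᶠ τ in 𝓝[s] t, ∀ y ∈ U, ∀ γ : ℝ, 0 ≤ γ → y + γ • zdir i₀ d ∈ U →
      lam * γ ≤ G τ (y + γ • zdir i₀ d) - G τ y ∧ G τ (y + γ • zdir i₀ d) - G τ y ≤ L * γ)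
    (c : ∃ U ∈ 𝓝 x, ∀ᶠ τ in 𝓝[s] t, ∀ y ∈ U, ∀ γ : ℝ, 0 ≤ γ → y + γ • zdir i₀ d ∈ U → ∀ i,
      b τ i (kap (y + γ • zdir i₀ d)) = b τ i (kap y) ∧
      ν τ i (kap (y + γ • zdir i₀ d)) = ν τ i (kap y))
    (n : ∃ U ∈ 𝓝 x, ∀ y ∈ U, ∀ γ : ℝ, 0 ≤ γ → y + γ • zdir i₀ d ∈ U →
      |‖y + γ • zdir i₀ d‖ - ‖y‖| ≤ q * γ) : Cro s ε R j k b ν G t x := by
  obtain ⟨L, U1, hU1, g⟩ := g
  obtain ⟨U2, hU2, c⟩ := c
  obtain ⟨U3, hU3, n⟩ := n
  by_cases hwall : ‖x.2‖ = x.1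
  · obtain ⟨U4, hU4, f⟩ := front_grow hx hwall hkap d
    refine ⟨zdir i₀ d, lam, q, L, d, hlam, hq, hw hwall, hR, U1 ∩ U2 ∩ (U3 ∩ U4),
      inter_mem (inter_mem hU1 hU2) (inter_mem hU3 hU4), ?_⟩
    filter_upwards [g, c] with τ g c
    rintro y ⟨⟨y1, y2⟩, y3, y4⟩ γ hγ ⟨⟨z1, z2⟩, z3, z4⟩
    obtain ⟨g1, g2⟩ := g y y1 γ hγ z1
    have cj := c y y2 γ hγ z2 j
    have ck := c y y2 γ hγ z2 k
    exact ⟨g1, g2, ⟨cj.1, ck.1, cj.2, ck.2⟩, n y y3 γ hγ z3, fun _ => f y y4 γ hγ z4⟩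
  · refine ⟨zdir i₀ d, lam, q, L, 1, hlam, hq, one_pos, hR, U1 ∩ U2 ∩ U3,
      inter_mem (inter_mem hU1 hU2) hU3, ?_⟩
    filter_upwards [g, c] with τ g c
    rintro y ⟨⟨y1, y2⟩, y3⟩ γ hγ ⟨⟨z1, z2⟩, z3⟩
    obtain ⟨g1, g2⟩ := g y y1 γ hγ z1
    have cj := c y y2 γ hγ z2 j
    have ck := c y y2 γ hγ z2 k
    exact ⟨g1, g2, ⟨cj.1, ck.1, cj.2, ck.2⟩, n y y3 γ hγ z3, fun h => absurd h hwall⟩

theorem kap_le_zY {y : ℝ × (ι → ℝ)} (h : -1 < kap y i₀) : kap y i₀ ≤ zY i₀ y := by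
  rw [kap_eq_zY] at h ⊢
  rcases lt_max_iff.mp h with h1 | h1
  · exact absurd h1 (lt_irrefl _)
  · rw [max_eq_right h1.le]; exact min_le_left _ _

theorem zY_le_kap {y : ℝ × (ι → ℝ)} (h : kap y i₀ < 1) : zY i₀ y ≤ kap y i₀ := by
  rw [kap_eq_zY] at h ⊢
  have h1 : min (zY i₀ y) 1 < 1 := (le_max_right _ _).trans_lt h
  have h2 : zY i₀ y < 1 := by
    rcases min_lt_iff.mp h1 with h2 | h2
    · exact h2
    · exact absurd h2 (lt_irrefl _)
  rw [min_eq_left h2.le]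
  exact le_max_right _ _

theorem norm_zdir_le {d : ℝ} (hd0 : 0 ≤ d) (hd : d ≤ 1) : ‖zdir i₀ d‖ ≤ 1 := by
  rw [Prod.norm_def]
  refine max_le ?_ ?_
  · show ‖-d‖ ≤ 1
    rw [norm_neg, Real.norm_of_nonneg hd0]; exact hd
  · show ‖(Pi.single i₀ 1 : ι → ℝ)‖ ≤ 1
    rw [pi_norm_le_iff_of_nonneg zero_le_one]
    intro i
    by_cases h : i = i₀
    · subst h; simp
    · simp [Pi.single_eq_of_ne h]

variable {e : V} {ε R M : ℝ} {j k : A} {b ν : A → (ι → ℝ) → V}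

/-- **The first family.** -/
theorem zfam1 (h : ZDat i₀ e ε j k b ν) (he : ‖e‖ = 1) (hA : Adm ε R M b) {K : ℝ}
    (hK : 16 ≤ K) (hKR : 4 * R ≤ ε * K) :
    ZFam (Icc (0 : ℝ) 5) e ε R M j k (fun c i x => b i (zPhi i₀ c x))
      (fun c i x => ν i (zPhi i₀ c x)) (fun c s => K * (zY i₀ s - c)) where
  fam := h.wfam
  jk := h.jk
  he := he
  adm := fun t _ => adm_zPhi hA t
  cG := by
    rintro q ⟨-, hq⟩
    have h1 : ContinuousAt (fun q : ℝ × (ℝ × (ι → ℝ)) => zY i₀ q.2) q :=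
      ContinuousAt.comp (f := fun q : ℝ × (ℝ × (ι → ℝ)) => q.2) (g := zY i₀)
        (continuousAt_zY hq) continuousAt_snd
    exact (continuousAt_const.mul (h1.sub continuousAt_fst)).continuousWithinAt
  hG := fun t _ l hl x => by
    show K * (zY i₀ (l • x) - t) = K * (zY i₀ x - t)
    rw [zY_smul hl]
  par := by
    intro t ht x hx h1
    have hK0 : 0 < K := by linarith
    have hz : -(1 / 16) < zY i₀ x := by
      have h1' : -1 < K * (zY i₀ x - t) := h1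
      have h2 : -1 < K * zY i₀ x := by nlinarith [mul_nonneg hK0.le ht.1]
      by_contra h3
      push Not at h3
      have h4 := mul_le_mul_of_nonneg_left h3 hK0.le
      linarith
    have hk : -(1 / 4) ≤ kap x i₀ := by
      rw [kap_eq_zY]
      refine le_trans ?_ (le_max_right _ _)
      exact le_min (by linarith) (by norm_num)
    exact ⟨h.wnu t (kap_mem x) hk, h.wperp t (kap_mem x) hk,
      fun i hij hik θ hθ => h.wsepi t hij hik (kap_mem x) hk hθ⟩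
  slab := by
    intro t _ x hx _
    have hK0 : 0 < K := by linarith
    obtain ⟨L, U, hU, H⟩ := zY_dirLip (i₀ := i₀) hx
    refine ⟨K * L, U, hU, Eventually.of_forall fun τ y hy γ hy' => ?_⟩
    have h1 := H y hy γ hy'
    have e1 : K * (zY i₀ (y + γ • ((1, 0) : ℝ × (ι → ℝ))) - τ) - K * (zY i₀ y - τ) =
        K * (zY i₀ (y + γ • ((1, 0) : ℝ × (ι → ℝ))) - zY i₀ y) := by ring
    show |K * (zY i₀ (y + γ • ((1, 0) : ℝ × (ι → ℝ))) - τ) - K * (zY i₀ y - τ)| ≤ _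
    rw [e1, abs_mul, abs_of_pos hK0, mul_assoc]
    exact mul_le_mul_of_nonneg_left h1 hK0.le
  cro := by
    intro t ht x hx hle h1 h2
    have hK0 : 0 < K := by linarith
    have hε := hA.hε
    have hu := fst_pos hle hx
    have hn : 0 < ‖x‖ := norm_pos_iff.mpr hx
    have h1' : -1 < K * (zY i₀ x - t) := h1
    have h2' : K * (zY i₀ x - t) < 0 := h2
    have z1 : t - 1 / 16 < zY i₀ x := by
      by_contra h3
      push Not at h3
      have h4 := mul_le_mul_of_nonneg_left (by linarith : zY i₀ x - t ≤ -(1 / 16)) hK0.le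
      linarith
    have z2 : zY i₀ x < t := by
      by_contra h3
      push Not at h3
      have h4 := mul_nonneg hK0.le (sub_nonneg.mpr h3)
      linarith
    have hkap1 : -1 < kap x i₀ := by
      rw [kap_eq_zY]
      refine lt_of_lt_of_le ?_ (le_max_right _ _)
      exact lt_min (by linarith [ht.1]) (by norm_num)
    set η := min ((t - zY i₀ x) / 2) (1 / 32) with hη
    have hη0 : 0 < η := lt_min (by linarith) (by norm_num)
    have hη1 : η ≤ (t - zY i₀ x) / 2 := min_le_left _ _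
    have hη2 : η ≤ 1 / 32 := min_le_right _ _
    have ey : ∀ᶠ y in 𝓝 x, zY i₀ x - η < zY i₀ y ∧ zY i₀ y < zY i₀ x + η :=
      ((continuousAt_zY hx).eventually (lt_mem_nhds (by linarith))).and
        ((continuousAt_zY hx).eventually (gt_mem_nhds (by linarith)))
    have eτ : ∀ᶠ τ in 𝓝[Icc (0 : ℝ) 5] t, τ ∈ Icc (0 : ℝ) 5 ∧ t - η < τ ∧ τ < t + η := by
      have a1 : ∀ᶠ τ in 𝓝[Icc (0 : ℝ) 5] t, τ ∈ Icc (0 : ℝ) 5 := self_mem_nhdsWithin
      have a2 : ∀ᶠ τ in 𝓝 t, t - η < τ := lt_mem_nhds (by linarith)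
      have a3 : ∀ᶠ τ in 𝓝 t, τ < t + η := gt_mem_nhds (by linarith)
      exact a1.and ((a2.and a3).filter_mono nhdsWithin_le_nhds)
    have grow : ∀ d : ℝ, 0 ≤ d → d ≤ 1 / 2 → ∃ L : ℝ, ∃ U ∈ 𝓝 x, ∀ᶠ τ in 𝓝[Icc (0 : ℝ) 5] t,
        ∀ y ∈ U, ∀ γ : ℝ, 0 ≤ γ → y + γ • zdir i₀ d ∈ U →
        K * (1 / (4 * ‖x‖)) * γ ≤
          K * (zY i₀ (y + γ • zdir i₀ d) - τ) - K * (zY i₀ y - τ) ∧
        K * (zY i₀ (y + γ • zdir i₀ d) - τ) - K * (zY i₀ y - τ) ≤ L * γ := by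
      intro d hd0 hd
      obtain ⟨L, U, hU, H⟩ := zY_grow hle hx hd0 hd (i₀ := i₀)
      refine ⟨K * L, U, hU, Eventually.of_forall fun τ y hy γ hγ hy' => ?_⟩
      obtain ⟨a1, a2⟩ := H y hy γ hγ hy'
      have b1 := mul_le_mul_of_nonneg_left a1 hK0.le
      have b2 := mul_le_mul_of_nonneg_left a2 hK0.le
      constructor
      · linarith
      · linarith
    have hlam : 0 < K * (1 / (4 * ‖x‖)) := by positivity
    have hRq : R < 2 * ε * (K * (1 / (4 * ‖x‖))) * ‖x‖ := by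
      have e1 : 2 * ε * (K * (1 / (4 * ‖x‖))) * ‖x‖ = ε * K / 2 := by field_simp; ring
      have h5 : 0 < ε * K := by positivity
      rw [e1]; linarith
    have hR0 : 0 < R := lt_of_lt_of_le hε hA.hR
    rcases lt_or_ge (7 / 8) (kap x i₀) with hcase | hcase
    · -- near the face
      have ek : ∀ᶠ y : ℝ × (ι → ℝ) in 𝓝 x, 7 / 8 < kap y i₀ := by
        have c1 : ContinuousAt (fun y : ℝ × (ι → ℝ) => kap y i₀) x :=
          ContinuousAt.comp (f := fun y : ℝ × (ι → ℝ) => kap y) (g := fun p : ι → ℝ => p i₀)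
            (continuous_apply i₀).continuousAt (continuousAt_kap hx)
        exact c1.eventually (lt_mem_nhds hcase)
      refine mk_cro (d := 1 / 2) (q := 1) (i₀ := i₀) hlam zero_le_one (by rw [mul_one]; exact hRq)
        hx hkap1 (fun _ => by norm_num) (grow _ (by norm_num) le_rfl) ?_ ?_
      · refine ⟨_, ey.and ek, ?_⟩
        filter_upwards [eτ] with τ hτ
        rintro y ⟨y1, y2⟩ γ _ ⟨w1, w2⟩ i
        have l1 : kap y i₀ ≤ τ := by
          have := kap_le_zY (i₀ := i₀) (y := y) (by linarith [show 7 / 8 < kap y i₀ from y2])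
          linarith [y1.2, hτ.2.1]
        have l2 : kap (y + γ • zdir i₀ (1 / 2)) i₀ ≤ τ := by
          have := kap_le_zY (i₀ := i₀) (y := y + γ • zdir i₀ (1 / 2))
            (by linarith [show 7 / 8 < kap (y + γ • zdir i₀ (1 / 2)) i₀ from w2])
          linarith [w1.2, hτ.2.1]
        exact h.wconst' i (kap_mem _) (kap_mem _) (le_of_lt w2) l2 (le_of_lt y2) l1
      · refine ⟨univ, univ_mem, fun y _ γ hγ _ => ?_⟩
        refine (abs_norm_sub_norm_le _ _).trans ?_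
        rw [add_sub_cancel_left, norm_smul, Real.norm_of_nonneg hγ, one_mul]
        exact mul_le_of_le_one_right hγ (norm_zdir_le (by norm_num) (by norm_num))
    · -- away from the face
      have hk2 : kap x i₀ < 1 := lt_of_le_of_lt hcase (by norm_num)
      obtain ⟨U, hU, H⟩ := kap_add_zdir hkap1 hk2 hx
      have ek : ∀ᶠ y : ℝ × (ι → ℝ) in 𝓝 x, -1 < kap y i₀ ∧ kap y i₀ < 1 := by
        have c1 : ContinuousAt (fun y : ℝ × (ι → ℝ) => kap y i₀) x :=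
          ContinuousAt.comp (f := fun y : ℝ × (ι → ℝ) => kap y) (g := fun p : ι → ℝ => p i₀)
            (continuous_apply i₀).continuousAt (continuousAt_kap hx)
        exact (c1.eventually (lt_mem_nhds hkap1)).and (c1.eventually (gt_mem_nhds hk2))
      have main : ∀ d : ℝ, 0 ≤ d → d ≤ 1 / 2 → (d = 0 ∨ ‖x.2‖ = x.1) → (‖x.2‖ = x.1 → 0 < d) →
          Cro (Icc (0 : ℝ) 5) ε R j k (fun c i x => b i (zPhi i₀ c x))
            (fun c i x => ν i (zPhi i₀ c x)) (fun c s => K * (zY i₀ s - c)) t x := by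
        intro d hd0 hd hdw hdp
        refine mk_cro (d := d) (q := d) (i₀ := i₀) hlam hd0 ?_ hx hkap1 hdp (grow d hd0 hd) ?_ ?_
        · have : R * d ≤ R * 1 := mul_le_mul_of_nonneg_left (by linarith) hR0.le
          linarith
        · refine ⟨_, (ey.and ek).and hU, ?_⟩
          filter_upwards [eτ] with τ hτ
          rintro y ⟨⟨y1, y2⟩, y3⟩ γ _ ⟨⟨w1, w2⟩, w3⟩ i
          have a1 := kap_le_zY y2.1
          have a2 := zY_le_kap y2.2
          have a3 := kap_le_zY w2.1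
          have a4 := zY_le_kap w2.2
          refine h.wconst hτ.1.1 i (kap_mem _)
            (fun l hl => (H d ⟨hd0, by linarith⟩ hdw y y3 γ w3).1 l hl) ?_ ?_ ?_ ?_
          · linarith [w1.1, hτ.2.2]
          · linarith [w1.2, hτ.2.1]
          · linarith [y1.1, hτ.2.2]
          · linarith [y1.2, hτ.2.1]
        · refine ⟨U, hU, fun y hy γ hγ hy' => ?_⟩
          have h5 := (H d ⟨hd0, by linarith⟩ hdw y hy γ hy').2
          rwa [abs_of_nonneg hγ] at h5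
      by_cases hwall : ‖x.2‖ = x.1
      · exact main (1 / 2) (by norm_num) le_rfl (Or.inr hwall) fun _ => by norm_num
      · exact main 0 le_rfl (by norm_num) (Or.inl rfl) fun h => absurd h hwall

end Vale.Agent.P268.T.Z903
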