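import Vale.Agent.P268.T.H903.Zip
import Vale.Agent.P268.T.H293.ZipReg6
import Vale.Agent.P268.T.H5.ZipBase

/-!
# P268, topological half: the theorem `zip`
-/

set_option linter.unusedSectionVars false

namespace Vale.Agent.P268.T.Z903

open Set Filter Topology Metric Z293

variable {ι : Type*} [Fintype ι] [DecidableEq ι] {i₀ : ι}
variable {V A : Type*} [NormedAddCommGroup V] [InnerProductSpace ℝ V] [ProperSpace V]
  [DecidableEq A] [Fintype A]
variable {e : V} {ε R M : ℝ} {j k : A} {b ν : A → (ι → ℝ) → V}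

/-- **ZIP.** -/
theorem zip (h : ZDat i₀ e ε j k b ν) (he : ‖e‖ = 1) (hA : Adm ε R M b) {K' : ℝ}
    (hK' : 16 ≤ K') : VEq (NN e ε R M b ν) (ZN i₀ e ε R M K' j k b ν) :=
  zip_of_reg (fun _ _ _ _ hf => hf.rfam (zbase hf hA.hε)) h he hA hK'

end Vale.Agent.P268.T.Z903
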